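import Vale.Agent.P167.QC.DT.Euc
import Vale.Agent.P167.QC.Lat
import Vale.Agent.P167.H174.CT.Stop

/-!
# P167, general `q`, block DT (iii): the law at a stopping index
-/

set_option autoImplicit false

open Set Relation

namespace Vale.Agent.P167.QC.DT

open Vale.Agent.P167
open Vale.Agent.P167.E6 Vale.Agent.P167.E2
open Vale.Agent.P167.FK Vale.Agent.P167.FKA
open Vale.Agent.P167.QN (FreshP FreshD rdq fresh_both)
open Vale.Agent.P167.H718 (Dq)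
open Vale.Agent.P167.H192 (cfg)
open Vale.Agent.P167.QE (ExW cexW exW_mono exW_const cyl_fin)
open Vale.Agent.P167.H411 (cyl exn mem_cyl)
open Vale.Agent.P167.H174.CT (Hist tower exn_C exn_fin exn_w)

/-- The curve after the index `κ` crosses the annulus `(z₀; ρ₁, ρ₂)` and is not cut. -/
def NoCutAt {n : ℕ} (p : ZMod n → ℤ × ℤ) (k : ℕ) (δ : ℝ) (S : Finset (ℤ × ℤ))
    (A : Finset (Sym2 (ℤ × ℤ))) (κ : ℕ) (z₀ : ℂ) (ρ₁ ρ₂ : ℝ) : Prop :=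
  ∃ s ∈ Icc (κ : ℝ) (nu p k A), ∃ s' ∈ Icc (κ : ℝ) (nu p k A),
    dist (pl p k δ A s) z₀ ≤ ρ₁ ∧ ρ₂ ≤ dist (pl p k δ A s') z₀ ∧
      ¬ CutAt p k δ S A κ z₀ ρ₁ ρ₂ s s'

theorem rd_rdq {n : ℕ} {p : ZMod n → ℤ × ℤ} {k : ℕ} {S : Finset (ℤ × ℤ)}
    {A : Finset (Sym2 (ℤ × ℤ))} (hA : A ⊆ edges S) (κ : ℕ) :
    Dq S p k \ H161.Rd p k S A κ = Dq S p k \ rdq p k A (κ - 1) := by
  ext v
  rw [Finset.mem_sdiff, Finset.mem_sdiff, H161.mem_Rd hA, QN.dq_eq]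
  unfold QN.rdq
  rw [Finset.mem_image]
  constructor
  · rintro ⟨h1, h2⟩
    refine ⟨h1, ?_⟩
    rintro ⟨j, hj, h3⟩
    exact h2 ⟨h1, j, Finset.mem_range.1 hj, h3⟩
  · rintro ⟨h1, h2⟩
    refine ⟨h1, ?_⟩
    rintro ⟨-, j, hj, h3⟩
    exact h2 ⟨j, Finset.mem_range.2 hj, h3⟩

theorem good_wired {n : ℕ} {p : ZMod n → ℤ × ℤ} {k : ℕ} (A : Finset (Sym2 (ℤ × ℤ))) :
    Good (cfg (wiredOpen p k A)) := by
  classical
  have h : wiredOpen p k A = ((A ∪ H718.wE p k : Finset (Sym2 (ℤ × ℤ))) : Set _) := by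
    ext e
    rw [H718.mem_wiredOpen, Finset.mem_coe, Finset.mem_union]
  rw [h]
  exact H718.good_of_finite _

section

variable {q : ℝ} {δ : ℕ → ℝ} {N k : ℕ → ℕ} {p : ∀ n, ZMod (N n) → ℤ × ℤ}
  {S : ℕ → Finset (ℤ × ℤ)} {ψn : ℕ → ℂ → ℂ} {n : ℕ} {α C : ℝ}

/-- **The conditional probability** of a crossing which is not cut. -/
theorem cex_nocut (hq : 1 ≤ q) (hC : 0 ≤ C) (hα : 0 ≤ α) (hAD : ArmDec (√q) α C) (hδ : 0 < δ n)
    (hp : IsPolygon (p n)) (hE : Encloses (p n) (S n)) (hk : k n + 1 < N n)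
    {A : Finset (Sym2 (ℤ × ℤ))} (hA : A ⊆ edges (S n)) {κ : ℕ} (hκ : 1 ≤ κ) {z₀ : ℂ} {ρ₁ ρ₂ : ℝ}
    (h1 : δ n ≤ ρ₁) (h2 : 16 * ρ₁ ≤ ρ₂) :
    cexW (exn δ N k p S ψn n) (fun A' => Final.weight q (p n) (k n) (S n) A')
      ({A' | NoCutAt (p n) (k n) (δ n) (S n) A' κ z₀ ρ₁ ρ₂}.indicator 1) A κ ≤
      2 * q * C * (8 * (ρ₁ / ρ₂)) ^ α := by
  have hq0 : 0 < q := by linarith
  have hQ : 1 ≤ √q := Real.one_le_sqrt.2 hq
  have hsq : √q ^ 2 = q := Real.sq_sqrt hq0.le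
  obtain ⟨r1, r2, r3⟩ := ratio hδ h1 h2
  have hρ1 : 0 < ρ₁ := hδ.trans_le h1
  have hρ2 : 0 < ρ₂ := by linarith
  set Fr : Set Cfg := {ω | FreshP (ctr (δ n) z₀) (rin (δ n) ρ₁) (rout (δ n) ρ₂)
      (Dq (S n) (p n) (k n) \ rdq (p n) (k n) A (κ - 1)) ω ∨
    FreshD (ctr (δ n) z₀) (rin (δ n) ρ₁) (rout (δ n) ρ₂)
      (Dq (S n) (p n) (k n) \ rdq (p n) (k n) A (κ - 1)) ω} with hFr
  have e1 : cexW (exn δ N k p S ψn n) (fun A' => Final.weight q (p n) (k n) (S n) A')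
      ({A' | NoCutAt (p n) (k n) (δ n) (S n) A' κ z₀ ρ₁ ρ₂}.indicator 1) A κ ≤
      cexW (exn δ N k p S ψn n) (fun A' => Final.weight q (p n) (k n) (S n) A')
        (fun A' => Fr.indicator 1 (cfg (wiredOpen (p n) (k n) A'))) A κ := by
    refine exW_mono (cyl_fin exn_fin A κ) (fun a ha => exn_w hq0 a ha.1) fun A' hA' => ?_
    have hAe : A' ⊆ edges (S n) := by
      have := hA'.1
      rw [exn_C] at this
      exact this
    have hrun : ∀ j < κ - 1, run (p n) (k n) A' j = run (p n) (k n) A j := by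
      intro j hj
      have := hA'.2 (j + 1) (by omega)
      exact this
    have hrd : rdq (p n) (k n) A' (κ - 1) = rdq (p n) (k n) A (κ - 1) := by
      unfold QN.rdq
      refine Finset.image_congr fun j hj => ?_
      have hj' := Finset.mem_range.1 (Finset.mem_coe.1 hj)
      simp only [hrun j hj']
    by_cases hN : NoCutAt (p n) (k n) (δ n) (S n) A' κ z₀ ρ₁ ρ₂
    · rw [Set.indicator_of_mem (show A' ∈ {A' | NoCutAt (p n) (k n) (δ n) (S n) A' κ z₀ ρ₁ ρ₂}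
        from hN)]
      have hmem : cfg (wiredOpen (p n) (k n) A') ∈ Fr := by
        by_contra hn
        obtain ⟨s, hs, s', hs', g1, g2, g3⟩ := hN
        rw [hFr, Set.mem_setOf_eq, not_or, ← hrd] at hn
        exact g3 (dt_euc hδ hp hE hk hAe hκ h1 h2 hn.1 hn.2 hs hs' g1 g2)
      rw [Set.indicator_of_mem hmem]
      exact le_rfl
    · rw [Set.indicator_of_notMem (show A' ∉ {A' | NoCutAt (p n) (k n) (δ n) (S n) A' κ z₀ ρ₁ ρ₂}
        from hN)]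
      exact Set.indicator_nonneg (fun _ _ => zero_le_one) _
  refine e1.trans ?_
  rw [QG.cexW_exn hq0 δ N k p S ψn n hp hE _ hA κ, rd_rdq hA κ]
  have h5 := fresh_both hQ hAD (x := ctr (δ n) z₀) r1 r2.le
    (Dq (S n) (p n) (k n) \ rdq (p n) (k n) A (κ - 1)) (good_wired (p := p n) (k := k n) A)
  rw [hsq] at h5
  refine h5.trans ?_
  refine mul_le_mul_of_nonneg_left ?_ (by positivity)
  refine Real.rpow_le_rpow ?_ r3 hα
  have : (0 : ℝ) ≤ rin (δ n) ρ₁ := by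
    have : (1 : ℝ) ≤ rin (δ n) ρ₁ := by exact_mod_cast r1
    linarith
  have h6 : (0 : ℝ) ≤ rout (δ n) ρ₂ := by
    have : (rin (δ n) ρ₁ : ℝ) < rout (δ n) ρ₂ := by exact_mod_cast r2
    linarith
  exact div_nonneg this h6

/-- **The law** at a stopping index, with an annulus which depends on the history. -/
theorem law_nocut (hq : 1 ≤ q) (hC : 0 ≤ C) (hα : 0 ≤ α) (hAD : ArmDec (√q) α C) (hδ : 0 < δ n)
    (hp : IsPolygon (p n)) (hE : Encloses (p n) (S n)) (hk : k n + 1 < N n)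
    {κ : Finset (Sym2 (ℤ × ℤ)) → ℕ} (hκ : (exn δ N k p S ψn n).StopIx κ)
    {z₀ : Finset (Sym2 (ℤ × ℤ)) → ℂ} {ρ₁ ρ₂ : Finset (Sym2 (ℤ × ℤ)) → ℝ}
    (hz : Hist (exn δ N k p S ψn n) κ z₀) (hr1 : Hist (exn δ N k p S ψn n) κ ρ₁)
    (hr2 : Hist (exn δ N k p S ψn n) κ ρ₂) {G : Finset (Sym2 (ℤ × ℤ)) → Prop}
    (hG : Hist (exn δ N k p S ψn n) κ G) {m : ℝ} (hm0 : 0 ≤ m)
    (hm : ∀ A ⊆ edges (S n), G A → 1 ≤ κ A ∧ δ n ≤ ρ₁ A ∧ 16 * ρ₁ A ≤ ρ₂ A ∧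
      8 * (ρ₁ A / ρ₂ A) ≤ m) :
    ExW (exn δ N k p S ψn n).C (fun A => Final.weight q (p n) (k n) (S n) A)
      ({A | G A ∧ NoCutAt (p n) (k n) (δ n) (S n) A (κ A) (z₀ A) (ρ₁ A) (ρ₂ A)}.indicator 1) ≤
      2 * q * C * m ^ α := by
  classical
  have hq0 : 0 < q := by linarith
  have hf : (exn δ N k p S ψn n).C.Finite := exn_fin
  have hw := exn_w (δ := δ) (N := N) (k := k) (p := p) (S := S) (ψn := ψn) (n := n) hq0
  have h1 := tower (w := fun A => Final.weight q (p n) (k n) (S n) A) hf hw hκ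
    (Φ := fun h A' => {A' | G h ∧ NoCutAt (p n) (k n) (δ n) (S n) A' (κ h) (z₀ h) (ρ₁ h)
      (ρ₂ h)}.indicator (1 : Finset (Sym2 (ℤ × ℤ)) → ℝ) A')
    (fun h hh h' hh' ha => by
      simp only [hG h hh h' hh' ha, hκ h hh h' hh' ha, hz h hh h' hh' ha, hr1 h hh h' hh' ha,
        hr2 h hh h' hh' ha])
  refine le_trans (le_of_eq h1.symm) ?_
  have hne : (exn δ N k p S ψn n).C.Nonempty := ⟨∅, by rw [exn_C]; exact Finset.empty_subset _⟩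
  have hM : 0 ≤ 2 * q * C * m ^ α := by positivity
  refine le_trans (exW_mono hf hw (g := fun _ => 2 * q * C * m ^ α) fun A hA => ?_)
    (exW_const hf hne hw _).le
  rw [exn_C] at hA
  by_cases hGA : G A
  · obtain ⟨g1, g2, g3, g4⟩ := hm A hA hGA
    have h2 := cex_nocut (ψn := ψn) (z₀ := z₀ A) hq hC hα hAD hδ hp hE hk hA g1 g2 g3
    refine le_trans (le_of_eq ?_) (h2.trans ?_)
    · refine QE.cexW_congr (fun A' _ => ?_) A (κ A)
      congr 1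
      ext A''
      exact ⟨fun h => h.2, fun h => ⟨hGA, h⟩⟩
    · refine mul_le_mul_of_nonneg_left (Real.rpow_le_rpow ?_ g4 hα) (by positivity)
      have : 0 < ρ₁ A := hδ.trans_le g2
      have : 0 < ρ₂ A := by linarith
      positivity
  · refine le_trans (le_of_eq ?_) hM
    have e0 : ∀ A' ∈ (exn δ N k p S ψn n).C, {A' | G A ∧ NoCutAt (p n) (k n) (δ n) (S n) A' (κ A)
        (z₀ A) (ρ₁ A) (ρ₂ A)}.indicator (1 : Finset (Sym2 (ℤ × ℤ)) → ℝ) A' = (fun _ => 0) A' := by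
      intro A' _
      exact Set.indicator_of_notMem (fun h => hGA h.1) _
    rw [QE.cexW_congr e0 A (κ A)]
    show ExW _ _ _ = 0
    unfold QE.ExW
    simp

end

/-- **DT (iii)**, `1 ≤ q ≤ 4`: the constants depend only on `q`. -/
theorem exists_arm {q : ℝ} (h1 : 1 ≤ q) (h4 : q ≤ 4) :
    ∃ α C : ℝ, 0 < α ∧ 0 < C ∧ ArmDec (√q) α C := by
  obtain ⟨hQ, hR⟩ := QC.rsw_sqrt h1 h4
  obtain ⟨α, C, hα, hC, hAD, -⟩ := arm_fk hQ hR
  exact ⟨α, C, hα, hC, hAD⟩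

end Vale.Agent.P167.QC.DT
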