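import Mathlib.Analysis.Convex.PathConnected
import Mathlib.Analysis.Complex.Basic
import Mathlib.Analysis.SpecialFunctions.Pow.Real
import Mathlib.Topology.Order.IntermediateValue
import Mathlib.Tactic.Linarith

/-!
# P167, general `q`, block DT (ii): a visit of a half disc next to the boundary is not cut

`f` is a homeomorphism of the half-plane onto a component of `O \ K`, `γ` a curve in this component.
If `γ` visits the image of the half disc of radius `r` around `x₀` and no connected set of the ball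
`(z₀, r₂)` joins the image of this half disc with the outside of the half disc of radius `R'`, then
`γ` crosses the annulus `(z₀; r₁, r₂)` and no connected subset of the annulus through the crossing
separates its two ends.
-/

set_option autoImplicit false

open Set Metric Filter Topology

namespace Vale.Agent.P167.QC.DT

/-- The upper half-plane. -/
def Up : Set ℂ := {w | 0 < w.im}

theorem pc_gt {P : Set ℂ} (hP : IsPreconnected P) {h : ℂ → ℝ} (hc : ContinuousOn h P) {c : ℝ}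
    (hne : ∀ w ∈ P, h w ≠ c) {p : ℂ} (hp : p ∈ P) (hpc : c < h p) : ∀ w ∈ P, c < h w := by
  intro w hw
  by_contra hn
  push Not at hn
  obtain ⟨v, hv, hvc⟩ := hP.intermediate_value hw hp hc ⟨hn, hpc.le⟩
  exact hne v hv hvc

theorem pc_lt {P : Set ℂ} (hP : IsPreconnected P) {h : ℂ → ℝ} (hc : ContinuousOn h P) {c : ℝ}
    (hne : ∀ w ∈ P, h w ≠ c) {p : ℂ} (hp : p ∈ P) (hpc : h p < c) : ∀ w ∈ P, h w < c := by
  intro w hw
  by_contra hn
  push Not at hn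
  obtain ⟨v, hv, hvc⟩ := hP.intermediate_value hp hw hc ⟨hpc.le, hn⟩
  exact hne v hv hvc

theorem im_le_norm (x₀ : ℝ) (w : ℂ) : w.im ≤ ‖w - x₀‖ := by
  have h1 := Complex.abs_im_le_norm (w - x₀)
  have h2 : (w - x₀).im = w.im := by simp
  rw [h2] at h1
  exact (le_abs_self _).trans h1

/-- The outside of a half disc is path connected. -/
theorem join_out {x₀ R : ℝ} {w w' : ℂ} (hw : 0 < w.im) (hw' : 0 < w'.im) (h : R ≤ ‖w - x₀‖)
    (h' : R ≤ ‖w' - x₀‖) : JoinedIn {v : ℂ | 0 < v.im ∧ R ≤ ‖v - x₀‖} w w' := by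
  set M : ℝ := w.im + w'.im + |R| with hM
  have hR := le_abs_self R
  have hR0 := abs_nonneg R
  have vert : ∀ v : ℂ, 0 < v.im → R ≤ ‖v - x₀‖ → v.im ≤ M →
      JoinedIn {v : ℂ | 0 < v.im ∧ R ≤ ‖v - x₀‖} v ⟨v.re, M⟩ := by
    intro v hv hvR hvM
    refine JoinedIn.of_segment_subset ?_
    rintro _ ⟨a, b, ha, hb, hab, rfl⟩
    have hre : (a • v + b • (⟨v.re, M⟩ : ℂ)).re = v.re := by
      simp only [Complex.add_re, Complex.smul_re, smul_eq_mul]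
      rw [← add_mul, hab, one_mul]
    have him : (a • v + b • (⟨v.re, M⟩ : ℂ)).im = a * v.im + b * M := by
      simp only [Complex.add_im, Complex.smul_im, smul_eq_mul]
    have hge : v.im ≤ a * v.im + b * M := by
      have : v.im = a * v.im + b * v.im := by rw [← add_mul, hab, one_mul]
      nlinarith
    refine ⟨by rw [him]; linarith, ?_⟩
    refine hvR.trans ?_
    rw [Complex.norm_def, Complex.norm_def]
    refine Real.sqrt_le_sqrt ?_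
    rw [Complex.normSq_apply, Complex.normSq_apply]
    simp only [Complex.sub_re, Complex.sub_im, Complex.ofReal_re, Complex.ofReal_im, hre, him,
      sub_zero]
    nlinarith
  have hor : JoinedIn {v : ℂ | 0 < v.im ∧ R ≤ ‖v - x₀‖} ⟨w.re, M⟩ ⟨w'.re, M⟩ := by
    refine JoinedIn.of_segment_subset ?_
    rintro _ ⟨a, b, ha, hb, hab, rfl⟩
    have him : (a • (⟨w.re, M⟩ : ℂ) + b • (⟨w'.re, M⟩ : ℂ)).im = M := by
      simp only [Complex.add_im, Complex.smul_im, smul_eq_mul]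
      rw [← add_mul, hab, one_mul]
    refine ⟨by rw [him, hM]; linarith, ?_⟩
    refine le_trans ?_ (im_le_norm x₀ _)
    rw [him, hM]
    linarith
  exact ((vert w hw h (by rw [hM]; linarith)).trans hor).trans
    (vert w' hw' h' (by rw [hM]; linarith)).symm

/-- A half circle is connected. -/
theorem pc_arc {x₀ ρ : ℝ} (hρ : 0 < ρ) : IsPreconnected {w : ℂ | 0 < w.im ∧ ‖w - x₀‖ = ρ} := by
  have h : {w : ℂ | 0 < w.im ∧ ‖w - x₀‖ = ρ} =
      (fun x : ℝ => (⟨x₀ + x, √(ρ ^ 2 - x ^ 2)⟩ : ℂ)) '' Ioo (-ρ) ρ := by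
    ext w
    constructor
    · rintro ⟨h1, h2⟩
      have h3 : (w.re - x₀) ^ 2 + w.im ^ 2 = ρ ^ 2 := by
        rw [← h2, Complex.sq_norm, Complex.normSq_apply]
        simp only [Complex.sub_re, Complex.sub_im, Complex.ofReal_re, Complex.ofReal_im, sub_zero]
        ring
      have h4 : |w.re - x₀| < ρ := by
        refine abs_lt_of_sq_lt_sq ?_ hρ.le
        nlinarith
      refine ⟨w.re - x₀, abs_lt.1 h4, ?_⟩
      apply Complex.ext
      · simp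
      · show √(ρ ^ 2 - (w.re - x₀) ^ 2) = w.im
        rw [← h3, add_sub_cancel_left, Real.sqrt_sq h1.le]
    · rintro ⟨x, hx, rfl⟩
      have h1 : 0 < ρ ^ 2 - x ^ 2 := by nlinarith [hx.1, hx.2]
      refine ⟨Real.sqrt_pos.2 h1, ?_⟩
      rw [Complex.norm_def, Complex.normSq_apply]
      simp only [Complex.sub_re, Complex.sub_im, Complex.ofReal_re, Complex.ofReal_im, sub_zero,
        add_sub_cancel_left]
      rw [Real.mul_self_sqrt h1.le]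
      have : x * x + (ρ ^ 2 - x ^ 2) = ρ ^ 2 := by ring
      rw [this, Real.sqrt_sq hρ.le]
  rw [h]
  refine isPreconnected_Ioo.image _ (Continuous.continuousOn ?_)
  have h2 : (fun x : ℝ => (⟨x₀ + x, √(ρ ^ 2 - x ^ 2)⟩ : ℂ)) =
      fun x : ℝ => ((x₀ + x : ℝ) : ℂ) + ((√(ρ ^ 2 - x ^ 2) : ℝ) : ℂ) * Complex.I := by
    funext x
    apply Complex.ext <;> simp
  rw [h2]
  fun_prop

/-- **A visit next to the boundary is not cut.** -/
theorem cut_off {O K : Set ℂ} {f g : ℂ → ℂ} {γ : ℝ → ℂ} {κ ν x₀ r rs R' : ℝ} {z₀ : ℂ}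
    {r1 r2 : ℝ} (hf : ContinuousOn f Up) (hfO : MapsTo f Up (O \ K))
    (hgf : ∀ w ∈ Up, g (f w) = w) (hg : ContinuousOn g (f '' Up))
    (hcomp : ∀ Z, IsPreconnected Z → Z ⊆ O \ K → (Z ∩ f '' Up).Nonempty → Z ⊆ f '' Up)
    (hγ : ContinuousOn γ (Ioo κ ν)) (hγf : ∀ t ∈ Ioo κ ν, γ t ∈ f '' Up)
    (hr : r < rs) (hrs : rs < R') (hrs0 : 0 < rs)
    (hstart : ∀ᶠ t in 𝓝[>] κ, R' < ‖g (γ t) - x₀‖) (hend : ∀ᶠ t in 𝓝[<] ν, R' < ‖g (γ t) - x₀‖)
    (hvis : ∃ t ∈ Ioo κ ν, ‖g (γ t) - x₀‖ ≤ r)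
    (hC : ∀ w ∈ Up, ‖w - x₀‖ = rs → dist (f w) z₀ ≤ r1) (h12 : r1 < r2)
    (hno : ∀ P ⊆ Up, IsPreconnected P → f '' P ⊆ ball z₀ r2 → (∃ w ∈ P, ‖w - x₀‖ ≤ r) →
      ¬ ∃ w ∈ P, R' ≤ ‖w - x₀‖) :
    ∃ s ∈ Ioo κ ν, ∃ s' ∈ Ioo κ ν, dist (γ s) z₀ ≤ r1 ∧ r2 ≤ dist (γ s') z₀ ∧
      ¬ ∃ (Z : Set ℂ) (u : ℝ), u ∈ Ioo κ ν ∧ min s s' < u ∧ u < max s s' ∧ γ u ∈ Z ∧
        IsPreconnected Z ∧ Z ⊆ O \ K ∧ (∀ z ∈ Z, r1 < dist z z₀ ∧ dist z z₀ < r2) ∧
        ∀ u₀ ∈ Ioo κ u, ∀ u₁ ∈ Ioo u ν, ¬ JoinedIn (O \ (K ∪ Z)) (γ u₀) (γ u₁) := by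
  -- the curve in the half-plane
  have hβ : ∀ t ∈ Ioo κ ν, g (γ t) ∈ Up ∧ f (g (γ t)) = γ t := by
    intro t ht
    obtain ⟨w, hw, hwt⟩ := hγf t ht
    rw [← hwt, hgf w hw]
    exact ⟨hw, rfl⟩
  have hβc : ContinuousOn (fun t => g (γ t)) (Ioo κ ν) := hg.comp hγ hγf
  set ρ : ℝ → ℝ := fun t => ‖g (γ t) - x₀‖ with hρ
  have hρc : ContinuousOn ρ (Ioo κ ν) := (hβc.sub continuousOn_const).norm
  have hnc : Continuous fun w : ℂ => ‖w - x₀‖ := by fun_prop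
  obtain ⟨t₁, ht₁, ht₁r⟩ := hvis
  obtain ⟨t₀, ht₀R, ht₀κ, ht₀1⟩ : ∃ t₀, R' < ρ t₀ ∧ κ < t₀ ∧ t₀ < t₁ := by
    have h1 : ∀ᶠ t in 𝓝[>] κ, t ∈ Ioo κ t₁ := Ioo_mem_nhdsGT ht₁.1
    obtain ⟨t, h2, h3⟩ := (hstart.and h1).exists
    exact ⟨t, h2, h3.1, h3.2⟩
  have hI : Icc t₀ t₁ ⊆ Ioo κ ν := fun t ht => ⟨lt_of_lt_of_le ht₀κ ht.1,
    lt_of_le_of_lt ht.2 ht₁.2⟩
  -- the two sides of the half circle
  have harc : {w : ℂ | 0 < w.im ∧ ‖w - x₀‖ = rs} ⊆ Up := fun w hw => hw.1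
  have hside : (∀ P ⊆ Up, IsPreconnected P → f '' P ⊆ ball z₀ r2 → (∃ w ∈ P, ‖w - x₀‖ = rs) →
      ¬ ∃ w ∈ P, R' ≤ ‖w - x₀‖) ∨
      (∀ P ⊆ Up, IsPreconnected P → f '' P ⊆ ball z₀ r2 → (∃ w ∈ P, ‖w - x₀‖ = rs) →
      ¬ ∃ w ∈ P, ‖w - x₀‖ ≤ r) := by
    by_contra hn
    push Not at hn
    obtain ⟨⟨P₁, a1, a2, a3, ⟨p, a4, a5⟩, w1, a6, a7⟩,
      P₂, b1, b2, b3, ⟨q, b4, b5⟩, w2, b6, b7⟩ := hn
    have hp : p ∈ {w : ℂ | 0 < w.im ∧ ‖w - x₀‖ = rs} := ⟨a1 a4, a5⟩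
    have hq : q ∈ {w : ℂ | 0 < w.im ∧ ‖w - x₀‖ = rs} := ⟨b1 b4, b5⟩
    have h1 := IsPreconnected.union p a4 hp a2 (pc_arc (x₀ := x₀) hrs0)
    have h2 := IsPreconnected.union q (Or.inr hq) b4 h1 b2
    refine hno _ (union_subset (union_subset a1 harc) b1) h2 ?_ ⟨w2, Or.inr b6, b7⟩
      ⟨w1, Or.inl (Or.inl a6), a7⟩
    rintro _ ⟨w, (hw | hw) | hw, rfl⟩
    · exact a3 ⟨w, hw, rfl⟩
    · exact mem_ball.2 (lt_of_le_of_lt (hC w hw.1 hw.2) h12)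
    · exact b3 ⟨w, hw, rfl⟩
  -- pieces of the curve
  have hpiece : ∀ a b, a ∈ Ioo κ ν → b ∈ Ioo κ ν → (∀ t ∈ Icc a b, dist (γ t) z₀ < r2) →
      IsPreconnected ((fun t => g (γ t)) '' Icc a b) ∧ (fun t => g (γ t)) '' Icc a b ⊆ Up ∧
      f '' ((fun t => g (γ t)) '' Icc a b) ⊆ ball z₀ r2 := by
    intro a b ha hb hab
    have hsub : Icc a b ⊆ Ioo κ ν := fun t ht => ⟨lt_of_lt_of_le ha.1 ht.1,
      lt_of_le_of_lt ht.2 hb.2⟩
    refine ⟨isPreconnected_Icc.image _ (hβc.mono hsub), ?_, ?_⟩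
    · rintro _ ⟨t, ht, rfl⟩
      exact (hβ t (hsub ht)).1
    · rintro _ ⟨_, ⟨t, ht, rfl⟩, rfl⟩
      simp only
      rw [(hβ t (hsub ht)).2]
      exact mem_ball.2 (hab t ht)
  -- the ends
  have hends : ∀ u ∈ Ioo κ ν, (∃ u₀ ∈ Ioo κ u, R' < ρ u₀) ∧ ∃ u₁ ∈ Ioo u ν, R' < ρ u₁ := by
    intro u hu
    constructor
    · have h1 : ∀ᶠ t in 𝓝[>] κ, t ∈ Ioo κ u := Ioo_mem_nhdsGT hu.1
      obtain ⟨t, h2, h3⟩ := (hstart.and h1).exists
      exact ⟨t, h3, h2⟩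
    · have h1 : ∀ᶠ t in 𝓝[<] ν, t ∈ Ioo u ν := Ioo_mem_nhdsLT hu.2
      obtain ⟨t, h2, h3⟩ := (hend.and h1).exists
      exact ⟨t, h3, h2⟩
  -- a set whose image does not meet the outside
  have hfin : ∀ (Z : Set ℂ) (u : ℝ), u ∈ Ioo κ ν → Z ⊆ f '' Up →
      (∀ w ∈ g '' Z, ‖w - x₀‖ < R') →
      ¬ ∀ u₀ ∈ Ioo κ u, ∀ u₁ ∈ Ioo u ν, ¬ JoinedIn (O \ (K ∪ Z)) (γ u₀) (γ u₁) := by
    intro Z u hu hZf hZ hsep
    obtain ⟨⟨u₀, hu₀, h1⟩, u₁, hu₁, h2⟩ := hends u hu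
    have hu₀' : u₀ ∈ Ioo κ ν := ⟨hu₀.1, hu₀.2.trans hu.2⟩
    have hu₁' : u₁ ∈ Ioo κ ν := ⟨hu.1.trans hu₁.1, hu₁.2⟩
    refine hsep u₀ hu₀ u₁ hu₁ ?_
    have h3 := join_out (x₀ := x₀) (R := R') (hβ u₀ hu₀').1 (hβ u₁ hu₁').1 h1.le h2.le
    have h4 := h3.map_continuousOn (f := f) (hf.mono fun v hv => hv.1)
    rw [(hβ u₀ hu₀').2, (hβ u₁ hu₁').2] at h4
    refine h4.mono ?_
    rintro _ ⟨v, hv, rfl⟩
    have h5 := hfO (show v ∈ Up from hv.1)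
    refine ⟨h5.1, ?_⟩
    rintro (h6 | h6)
    · exact h5.2 h6
    · have h7 := hZ v ⟨f v, h6, hgf v hv.1⟩
      linarith [hv.2]
  rcases hside with hout | hin
  · -- the first visit of the half circle
    have hcl : IsCompact (Icc t₀ t₁ ∩ ρ ⁻¹' Iic rs) :=
      isCompact_Icc.of_isClosed_subset ((hρc.mono hI).preimage_isClosed_of_isClosed
        isClosed_Icc isClosed_Iic) inter_subset_left
    obtain ⟨s, ⟨hsI, hs⟩, hsmin⟩ := hcl.exists_isLeast ⟨t₁, ⟨ht₀1.le, le_rfl⟩,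
      show ρ t₁ ≤ rs from ht₁r.trans hr.le⟩
    have hbef : ∀ t ∈ Ico t₀ s, rs < ρ t := by
      intro t ht
      by_contra hn
      push Not at hn
      exact absurd (hsmin ⟨⟨ht.1, ht.2.le.trans hsI.2⟩, hn⟩) (not_le.2 ht.2)
    have hst₀ : t₀ < s := by
      rcases hsI.1.eq_or_lt with h | h
      · rw [← h] at hs
        have : ρ t₀ ≤ rs := hs
        linarith
      · exact h
    have hseq : ρ s = rs := by
      refine le_antisymm hs ?_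
      have h1 : ContinuousWithinAt ρ (Ico t₀ s) s :=
        (hρc s (hI hsI)).mono fun t ht => hI ⟨ht.1, ht.2.le.trans hsI.2⟩
      have h2 : (𝓝[Ico t₀ s] s).NeBot := by
        rw [← mem_closure_iff_nhdsWithin_neBot, closure_Ico hst₀.ne]
        exact ⟨hst₀.le, le_rfl⟩
      exact ge_of_tendsto h1 (eventually_nhdsWithin_of_forall fun t ht => (hbef t ht).le)
    have hsκ := hI hsI
    have hsin : dist (γ s) z₀ ≤ r1 := by
      rw [← (hβ s hsκ).2]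
      exact hC _ (hβ s hsκ).1 hseq
    -- the last time off the ball before
    have hsub1 : Icc t₀ s ⊆ Ioo κ ν := fun t ht => hI ⟨ht.1, ht.2.trans hsI.2⟩
    have hdc : ContinuousOn (fun t => dist (γ t) z₀) (Icc t₀ s) :=
      continuous_dist.comp_continuousOn ((hγ.mono hsub1).prodMk continuousOn_const)
    have hcl2 : IsCompact (Icc t₀ s ∩ (fun t => dist (γ t) z₀) ⁻¹' Ici r2) :=
      isCompact_Icc.of_isClosed_subset (hdc.preimage_isClosed_of_isClosed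
        isClosed_Icc isClosed_Ici) inter_subset_left
    have hne2 : (Icc t₀ s ∩ (fun t => dist (γ t) z₀) ⁻¹' Ici r2).Nonempty := by
      by_contra hn
      rw [not_nonempty_iff_eq_empty] at hn
      have h1 : ∀ t ∈ Icc t₀ s, dist (γ t) z₀ < r2 := by
        intro t ht
        by_contra h2
        push Not at h2
        have : t ∈ Icc t₀ s ∩ (fun t => dist (γ t) z₀) ⁻¹' Ici r2 := ⟨ht, h2⟩
        rw [hn] at this
        exact this
      obtain ⟨p1, p2, p3⟩ := hpiece t₀ s (hI ⟨le_rfl, ht₀1.le⟩) hsκ h1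
      exact hout _ p2 p1 p3 ⟨_, ⟨s, ⟨hst₀.le, le_rfl⟩, rfl⟩, hseq⟩
        ⟨_, ⟨t₀, ⟨le_rfl, hst₀.le⟩, rfl⟩, ht₀R.le⟩
    obtain ⟨s', ⟨hs'I, hs'⟩, hs'max⟩ := hcl2.exists_isGreatest hne2
    have hs'1 : r2 ≤ dist (γ s') z₀ := hs'
    have hss : s' < s := by
      rcases hs'I.2.eq_or_lt with h | h
      · rw [h] at hs'1
        linarith
      · exact h
    have haft : ∀ t ∈ Ioc s' s, dist (γ t) z₀ < r2 := by
      intro t ht
      by_contra h2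
      push Not at h2
      exact absurd (hs'max ⟨⟨hs'I.1.trans ht.1.le, ht.2⟩, h2⟩) (not_le.2 ht.1)
    refine ⟨s, hsκ, s', hI ⟨hs'I.1, hs'I.2.trans hsI.2⟩, hsin, hs'1, ?_⟩
    rintro ⟨Z, u, huκ, hu1, hu2, huZ, hZc, hZO, hZb, hsep⟩
    rw [min_eq_right hss.le] at hu1
    rw [max_eq_left hss.le] at hu2
    have hZf := hcomp Z hZc hZO ⟨γ u, huZ, hγf u huκ⟩
    have hgZ : IsPreconnected (g '' Z) := hZc.image g (hg.mono hZf)
    have hgZU : g '' Z ⊆ Up := by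
      rintro _ ⟨z, hz, rfl⟩
      obtain ⟨w, hw, rfl⟩ := hZf hz
      rw [hgf w hw]
      exact hw
    have hfg : ∀ z ∈ Z, f (g z) = z := by
      intro z hz
      obtain ⟨w, hw, rfl⟩ := hZf hz
      rw [hgf w hw]
    obtain ⟨p1, p2, p3⟩ := hpiece u s huκ hsκ fun t ht => haft t ⟨lt_of_lt_of_le hu1 ht.1, ht.2⟩
    have hj := IsPreconnected.union (g (γ u)) (mem_image_of_mem g huZ)
      (mem_image_of_mem (fun t => g (γ t)) (show u ∈ Icc u s from ⟨le_rfl, hu2.le⟩)) hgZ p1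
    refine hfin Z u huκ hZf (fun w hw => ?_) hsep
    by_contra hn
    push Not at hn
    refine hout _ (union_subset hgZU p2) hj ?_ ⟨_, Or.inr ⟨s, ⟨hu2.le, le_rfl⟩, rfl⟩, hseq⟩
      ⟨w, Or.inl hw, hn⟩
    rw [image_union]
    refine union_subset ?_ p3
    rintro _ ⟨_, ⟨z, hz, rfl⟩, rfl⟩
    rw [hfg z hz]
    exact mem_ball.2 (hZb z hz).2
  · -- the last visit of the half circle
    have hcl : IsCompact (Icc t₀ t₁ ∩ ρ ⁻¹' Ici rs) :=
      isCompact_Icc.of_isClosed_subset ((hρc.mono hI).preimage_isClosed_of_isClosed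
        isClosed_Icc isClosed_Ici) inter_subset_left
    obtain ⟨s, ⟨hsI, hs⟩, hsmax⟩ := hcl.exists_isGreatest ⟨t₀, ⟨le_rfl, ht₀1.le⟩,
      show rs ≤ ρ t₀ from (hrs.trans ht₀R).le⟩
    have haft : ∀ t ∈ Ioc s t₁, ρ t < rs := by
      intro t ht
      by_contra hn
      push Not at hn
      exact absurd (hsmax ⟨⟨hsI.1.trans ht.1.le, ht.2⟩, hn⟩) (not_le.2 ht.1)
    have hst₁ : s < t₁ := by
      rcases hsI.2.eq_or_lt with h | h
      · rw [h] at hs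
        have : rs ≤ ρ t₁ := hs
        linarith
      · exact h
    have hseq : ρ s = rs := by
      refine le_antisymm ?_ hs
      have h1 : ContinuousWithinAt ρ (Ioc s t₁) s :=
        (hρc s (hI hsI)).mono fun t ht => hI ⟨hsI.1.trans ht.1.le, ht.2⟩
      have h2 : (𝓝[Ioc s t₁] s).NeBot := by
        rw [← mem_closure_iff_nhdsWithin_neBot, closure_Ioc hst₁.ne]
        exact ⟨le_rfl, hst₁.le⟩
      exact le_of_tendsto h1 (eventually_nhdsWithin_of_forall fun t ht => (haft t ht).le)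
    have hsκ := hI hsI
    have hsin : dist (γ s) z₀ ≤ r1 := by
      rw [← (hβ s hsκ).2]
      exact hC _ (hβ s hsκ).1 hseq
    have hsub1 : Icc s t₁ ⊆ Ioo κ ν := fun t ht => hI ⟨hsI.1.trans ht.1, ht.2⟩
    have hdc : ContinuousOn (fun t => dist (γ t) z₀) (Icc s t₁) :=
      continuous_dist.comp_continuousOn ((hγ.mono hsub1).prodMk continuousOn_const)
    have hcl2 : IsCompact (Icc s t₁ ∩ (fun t => dist (γ t) z₀) ⁻¹' Ici r2) :=
      isCompact_Icc.of_isClosed_subset (hdc.preimage_isClosed_of_isClosed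
        isClosed_Icc isClosed_Ici) inter_subset_left
    have hne2 : (Icc s t₁ ∩ (fun t => dist (γ t) z₀) ⁻¹' Ici r2).Nonempty := by
      by_contra hn
      rw [not_nonempty_iff_eq_empty] at hn
      have h1 : ∀ t ∈ Icc s t₁, dist (γ t) z₀ < r2 := by
        intro t ht
        by_contra h2
        push Not at h2
        have : t ∈ Icc s t₁ ∩ (fun t => dist (γ t) z₀) ⁻¹' Ici r2 := ⟨ht, h2⟩
        rw [hn] at this
        exact this
      obtain ⟨p1, p2, p3⟩ := hpiece s t₁ hsκ (hI ⟨ht₀1.le, le_rfl⟩) h1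
      exact hin _ p2 p1 p3 ⟨_, ⟨s, ⟨le_rfl, hst₁.le⟩, rfl⟩, hseq⟩
        ⟨_, ⟨t₁, ⟨hst₁.le, le_rfl⟩, rfl⟩, ht₁r⟩
    obtain ⟨s', ⟨hs'I, hs'⟩, hs'min⟩ := hcl2.exists_isLeast hne2
    have hs'1 : r2 ≤ dist (γ s') z₀ := hs'
    have hss : s < s' := by
      rcases hs'I.1.eq_or_lt with h | h
      · rw [← h] at hs'1
        linarith
      · exact h
    refine ⟨s, hsκ, s', hI ⟨hsI.1.trans hs'I.1, hs'I.2⟩, hsin, hs'1, ?_⟩
    rintro ⟨Z, u, huκ, hu1, hu2, huZ, hZc, hZO, hZb, hsep⟩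
    rw [min_eq_left hss.le] at hu1
    rw [max_eq_right hss.le] at hu2
    have hZf := hcomp Z hZc hZO ⟨γ u, huZ, hγf u huκ⟩
    have hgZ : IsPreconnected (g '' Z) := hZc.image g (hg.mono hZf)
    refine hfin Z u huκ hZf (fun w hw => ?_) hsep
    refine lt_trans (pc_lt hgZ (h := fun w => ‖w - x₀‖) hnc.continuousOn (c := rs) ?_
      ⟨γ u, huZ, rfl⟩ (haft u ⟨hu1, hu2.le.trans hs'I.2⟩) w hw) hrs
    rintro _ ⟨z, hz, rfl⟩ heq
    obtain ⟨w', hw', rfl⟩ := hZf hz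
    rw [hgf w' hw'] at heq
    have h1 := hC w' hw' heq
    linarith [(hZb _ hz).1]

end Vale.Agent.P167.QC.DT
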