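import Vale.Agent.P167.QC.DT.Cross

/-!
# P167, general `q`, block DT (iii): a two-coloured cut separates (the topological part)
-/

set_option autoImplicit false

open Set Metric Topology

namespace Vale.Agent.P167.QC.DT

open P153.TOP

/-- A path up to its first visit of a closed set. -/
theorem first_hit {F T : Set ℂ} (hF : IsClosed F) {x y : ℂ} (g : Path x y) (hT : ∀ t, g t ∈ T)
    (hit : ∃ t, g t ∈ F) : ∃ (y' : ℂ) (A : Set ℂ), y' ∈ F ∧ A ⊆ T ∧ (∀ z ∈ A, z ∉ F) ∧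
      IsPreconnected A ∧ (A.Nonempty → x ∈ A) ∧ (x ∉ F → x ∈ A) ∧ JoinedIn (A ∪ {y'}) x y' := by
  set g' : ℝ → ℂ := ⇑g.extend with hg'
  have hc : Continuous g' := g.continuous_extend
  have hT' : ∀ t, g' t ∈ T := fun t => hT _
  set C : Set ℝ := Icc 0 1 ∩ g' ⁻¹' F with hC
  have hCc : IsCompact C := isCompact_Icc.inter_right (hF.preimage hc)
  obtain ⟨t₀, ht₀⟩ := hit
  have hne : C.Nonempty := by
    refine ⟨t₀, t₀.2, ?_⟩
    show g.extend t₀ ∈ F
    rw [Path.extend_apply g t₀.2]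
    exact ht₀
  obtain ⟨t₁, ⟨ht₁, ht₁F⟩, hmin⟩ := hCc.exists_isLeast hne
  have hx0 : g' 0 = x := by simp [hg']
  have hno : ∀ t ∈ Ico 0 t₁, g' t ∉ F := fun t ht hF' =>
    absurd (hmin ⟨⟨ht.1, ht.2.le.trans ht₁.2⟩, hF'⟩) (not_le.2 ht.2)
  refine ⟨g' t₁, g' '' Ico 0 t₁, ht₁F, ?_, ?_, ?_, ?_, ?_, ?_⟩
  · rintro _ ⟨t, -, rfl⟩
    exact hT' t
  · rintro _ ⟨t, ht, rfl⟩
    exact hno t ht
  · exact isPreconnected_Ico.image _ hc.continuousOn
  · rintro ⟨_, t, ht, rfl⟩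
    exact ⟨0, ⟨le_rfl, lt_of_le_of_lt ht.1 ht.2⟩, hx0⟩
  · intro hx
    refine ⟨0, ⟨le_rfl, ?_⟩, hx0⟩
    rcases ht₁.1.eq_or_lt with h | h
    · rw [← h] at ht₁F
      exact absurd (hx0 ▸ ht₁F) hx
    · exact h
  · have h1 : IsPathConnected (g' '' Icc 0 t₁) :=
      ((convex_Icc 0 t₁).isPathConnected ⟨0, le_rfl, ht₁.1⟩).image' hc.continuousOn
    have h2 : JoinedIn (g' '' Icc 0 t₁) x (g' t₁) :=
      h1.joinedIn _ ⟨0, ⟨le_rfl, ht₁.1⟩, hx0⟩ _ ⟨t₁, ⟨ht₁.1, le_rfl⟩, rfl⟩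
    refine h2.mono ?_
    rintro _ ⟨t, ht, rfl⟩
    rcases ht.2.eq_or_lt with h | h
    · exact Or.inr (by rw [h]; rfl)
    · exact Or.inl ⟨t, ⟨ht.1, h⟩, rfl⟩

/-- A connected set which does not meet the frontier of an open set. -/
theorem sub_of_frontier {D A : Set ℂ} (hD : IsOpen D) (hA : IsPreconnected A)
    (hf : ∀ z ∈ A, z ∉ frontier D) {x : ℂ} (hx : x ∈ A) (hxD : x ∈ closure D) : A ⊆ D := by
  have h1 : A ⊆ D ∪ (closure D)ᶜ := by
    intro z hz
    by_cases h : z ∈ closure D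
    · left
      by_contra hn
      refine hf z hz ?_
      rw [hD.frontier_eq]
      exact ⟨h, hn⟩
    · exact Or.inr h
  refine hA.subset_left_of_subset_union hD isClosed_closure.isOpen_compl ?_ h1 ⟨x, hx, ?_⟩
  · rw [Set.disjoint_compl_right_iff_subset]
    exact subset_closure
  · rcases h1 hx with h | h
    · exact h
    · exact absurd hxD h

/-- The side of the line of the segment. -/
noncomputable def sd (m v z : ℂ) : ℝ := ((z - m) / (Complex.I * v)).re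

theorem sd_add (m v : ℂ) (hv : v ≠ 0) (ε : ℝ) : sd m v (m + ε * (Complex.I * v)) = ε := by
  unfold sd
  rw [add_sub_cancel_left, mul_div_assoc, div_self (mul_ne_zero Complex.I_ne_zero hv), mul_one,
    Complex.ofReal_re]

theorem sd_sub (m v : ℂ) (hv : v ≠ 0) (ε : ℝ) : sd m v (m - ε * (Complex.I * v)) = -ε := by
  have := sd_add m v hv (-ε)
  rw [← this]
  congr 1
  push_cast
  ring

theorem sd_conv (m v x y : ℂ) {a b : ℝ} (hab : a + b = 1) :
    sd m v (a • x + b • y) = a * sd m v x + b * sd m v y := by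
  unfold sd
  have h1 : a • x + b • y - m = a * (x - m) + b * (y - m) := by
    rw [Complex.real_smul, Complex.real_smul]
    have : (a : ℂ) + b = 1 := by exact_mod_cast hab
    linear_combination m * this
  rw [h1, add_div, Complex.add_re, mul_div_assoc, mul_div_assoc, Complex.re_ofReal_mul,
    Complex.re_ofReal_mul]

theorem sd_seg {m p q : ℂ} (hpq : p ≠ q) (hm : m = (p + q) / 2) {z : ℂ}
    (hz : z ∈ segment ℝ p q) : sd m (q - p) z = 0 := by
  obtain ⟨a, b, ha, hb, hab, rfl⟩ := hz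
  have hqp : q - p ≠ 0 := sub_ne_zero.2 hpq.symm
  rw [sd_conv _ _ _ _ hab]
  have h1 : sd m (q - p) p = 0 := by
    unfold sd
    have : (p - m) / (Complex.I * (q - p)) = (1 / 2 : ℝ) * Complex.I := by
      rw [div_eq_iff (mul_ne_zero Complex.I_ne_zero hqp), hm]
      push_cast
      linear_combination (-(1 / 2) * (q - p)) * Complex.I_mul_I
    rw [this]
    simp
  have h2 : sd m (q - p) q = 0 := by
    unfold sd
    have : (q - m) / (Complex.I * (q - p)) = (-(1 / 2) : ℝ) * Complex.I := by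
      rw [div_eq_iff (mul_ne_zero Complex.I_ne_zero hqp), hm]
      push_cast
      linear_combination ((1 / 2) * (q - p)) * Complex.I_mul_I
    rw [this]
    simp
  rw [h1, h2]
  ring

/-- **A two-coloured cut separates.** -/
theorem sep_core {D Kc TR TL : Set ℂ} {γ : ℝ → ℂ} {s₀ s₁ u : ℝ} {p q : ℂ} (hD : IsOpen D)
    (hKc : IsClosed Kc) (hK0 : ∀ x ∈ frontier D ∪ Kc, ∀ y ∈ frontier D ∪ Kc,
      JoinedIn (frontier D ∪ Kc) x y) (hγ : ContinuousOn γ (Ioo s₀ s₁)) (hu : u ∈ Ioo s₀ s₁)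
    (hγD : ∀ t ∈ Ioo s₀ s₁, γ t ∈ D ∧ γ t ∉ Kc) (hpq : p ≠ q) (hm : γ u = (p + q) / 2)
    (hseg0 : ∀ z ∈ segment ℝ p q, z ≠ p → z ≠ q → z ∈ D ∧ z ∉ Kc)
    (hsegγ : ∀ t ∈ Ioo s₀ s₁, γ t ∈ segment ℝ p q → t = u) {η : ℝ} (hη : 0 < η)
    (hb : ∀ t ∈ Ioo (u - η) u, sd (γ u) (q - p) (γ t) < 0)
    (hf : ∀ t ∈ Ioo u (u + η), 0 < sd (γ u) (q - p) (γ t)) {yR yL : ℂ}
    (hR : JoinedIn TR q yR) (hRy : yR ∈ Kc ∨ yR ∉ D) (hL : JoinedIn TL p yL)
    (hLy : yL ∈ Kc ∨ yL ∉ D) (hTR : ∀ t ∈ Ioo s₀ s₁, γ t ∉ TR) (hTL : ∀ t ∈ Ioo s₀ s₁, γ t ∉ TL) :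
    ∃ Z : Set ℂ, γ u ∈ Z ∧ IsPreconnected Z ∧ Z ⊆ D \ Kc ∧ Z ⊆ segment ℝ p q ∪ TR ∪ TL ∧
      ∀ u₀ ∈ Ioo s₀ u, ∀ u₁ ∈ Ioo u s₁, ¬ JoinedIn (D \ (Kc ∪ Z)) (γ u₀) (γ u₁) := by
  set K₀ : Set ℂ := frontier D ∪ Kc with hK₀
  have hK₀c : IsClosed K₀ := isClosed_frontier.union hKc
  have hqp : q - p ≠ 0 := sub_ne_zero.2 hpq.symm
  have hDK : ∀ z, z ∈ D → z ∉ Kc → z ∉ K₀ := by
    rintro z h1 h2 (h3 | h3)
    · rw [hD.frontier_eq] at h3
      exact h3.2 h1
    · exact h2 h3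
  have hcl : closure (openSegment ℝ p q) = segment ℝ p q := closure_openSegment p q
  have hop : ∀ z ∈ openSegment ℝ p q, z ∈ D ∧ z ∉ Kc := by
    intro z hz
    refine hseg0 z (openSegment_subset_segment _ _ _ hz) ?_ ?_
    · rintro rfl
      exact hpq (left_mem_openSegment_iff.1 hz)
    · rintro rfl
      exact hpq (right_mem_openSegment_iff.1 hz)
  have hsegcl : segment ℝ p q ⊆ closure D := by
    rw [← hcl]
    exact closure_mono fun z hz => (hop z hz).1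
  have hqcl : q ∈ closure D := hsegcl (right_mem_segment ℝ p q)
  have hpcl : p ∈ closure D := hsegcl (left_mem_segment ℝ p q)
  -- the first visits
  have side : ∀ {T : Set ℂ} {x y : ℂ}, x ∈ closure D → JoinedIn T x y → (y ∈ Kc ∨ y ∉ D) →
      ∃ (y' : ℂ) (A : Set ℂ), y' ∈ K₀ ∧ A ⊆ T ∧ (∀ z ∈ A, z ∈ D ∧ z ∉ Kc) ∧
      IsPreconnected A ∧ (A.Nonempty → x ∈ A) ∧ (x ∉ K₀ → x ∈ A) ∧ JoinedIn (A ∪ {y'}) x y' := by
    intro T x y hx hj hy
    obtain ⟨g, hg⟩ := hj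
    have hit : ∃ t, g t ∈ K₀ := by
      by_contra hcon
      push Not at hcon
      have h1 : range g ⊆ D := by
        refine sub_of_frontier hD (isPreconnected_range g.continuous) ?_ (x := x)
          ⟨0, g.source⟩ hx
        rintro _ ⟨t, rfl⟩ h
        exact hcon t (Or.inl h)
      rcases hy with hy | hy
      · exact hcon 1 (Or.inr (by rw [g.target]; exact hy))
      · exact hy (h1 ⟨1, g.target⟩)
    obtain ⟨y', A, a1, a2, a3, a4, a5, a6, a7⟩ := first_hit hK₀c g hg hit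
    refine ⟨y', A, a1, a2, fun z hz => ⟨?_, fun h => a3 z hz (Or.inr h)⟩, a4, a5, a6, a7⟩
    exact sub_of_frontier hD a4 (fun w hw h => a3 w hw (Or.inl h)) (a5 ⟨z, hz⟩) hx hz
  obtain ⟨yR', AR, r1, r2, r3, r4, r5, r6, r7⟩ := side hqcl hR hRy
  obtain ⟨yL', AL, l1, l2, l3, l4, l5, l6, l7⟩ := side hpcl hL hLy
  set Z₀ : Set ℂ := segment ℝ p q \ K₀ with hZ₀
  have hZ₀c : IsPreconnected Z₀ := by
    refine (convex_openSegment p q).isPreconnected.subset_closure ?_ ?_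
    · intro z hz
      exact ⟨openSegment_subset_segment _ _ _ hz, hDK z (hop z hz).1 (hop z hz).2⟩
    · rw [hcl]
      exact sdiff_subset
  have hZ₀D : ∀ z ∈ Z₀, z ∈ D ∧ z ∉ Kc := by
    rintro z ⟨hz1, hz2⟩
    refine ⟨?_, fun h => hz2 (Or.inr h)⟩
    by_contra hn
    exact hz2 (Or.inl (by rw [hD.frontier_eq]; exact ⟨hsegcl hz1, hn⟩))
  have hmseg : γ u ∈ segment ℝ p q := by
    rw [hm]
    refine ⟨1 / 2, 1 / 2, by norm_num, by norm_num, by norm_num, ?_⟩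
    rw [Complex.real_smul, Complex.real_smul]
    push_cast
    ring
  have hmD := hγD u hu
  refine ⟨Z₀ ∪ AR ∪ AL, Or.inl (Or.inl ⟨hmseg, hDK _ hmD.1 hmD.2⟩), ?_, ?_, ?_, ?_⟩
  · have h1 : IsPreconnected (Z₀ ∪ AR) := by
      rcases AR.eq_empty_or_nonempty with h | h
      · rw [h, union_empty]
        exact hZ₀c
      · have hqA := r5 h
        have hqZ : q ∈ Z₀ := ⟨right_mem_segment ℝ p q, hDK q (r3 q hqA).1 (r3 q hqA).2⟩
        exact hZ₀c.union q hqZ hqA r4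
    rcases AL.eq_empty_or_nonempty with h | h
    · rw [h, union_empty]
      exact h1
    · have hpA := l5 h
      have hpZ : p ∈ Z₀ := ⟨left_mem_segment ℝ p q, hDK p (l3 p hpA).1 (l3 p hpA).2⟩
      exact h1.union p (Or.inl hpZ) hpA l4
  · rintro z ((h | h) | h)
    · exact hZ₀D z h
    · exact r3 z h
    · exact l3 z h
  · rintro z ((h | h) | h)
    · exact Or.inl (Or.inl h.1)
    · exact Or.inl (Or.inr (r2 h))
    · exact Or.inr (l2 h)
  intro u₀ hu₀ u₁ hu₁ hj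
  -- the closed curve
  set K₂ : Set ℂ := (AR ∪ {yR'}) ∪ K₀ ∪ (AL ∪ {yL'}) with hK₂
  have hjc : JoinedIn K₂ q p := by
    have j1 : JoinedIn K₂ q yR' := r7.mono fun z hz => Or.inl (Or.inl hz)
    have j2 : JoinedIn K₂ yR' yL' := (hK0 yR' r1 yL' l1).mono fun z hz => Or.inl (Or.inr hz)
    have j3 : JoinedIn K₂ p yL' := l7.mono fun z hz => Or.inr hz
    exact (j1.trans j2).trans j3.symm
  obtain ⟨c, hc⟩ := hjc
  have hγK₂ : ∀ t ∈ Ioo s₀ s₁, γ t ∉ K₂ := by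
    intro t ht h
    have hd := hγD t ht
    have h0 := hDK _ hd.1 hd.2
    rcases h with ((h | h) | h) | (h | h)
    · exact hTR t ht (r2 h)
    · exact h0 (by rw [mem_singleton_iff.1 h]; exact r1)
    · exact h0 h
    · exact hTL t ht (l2 h)
    · exact h0 (by rw [mem_singleton_iff.1 h]; exact l1)
  have hmc : γ u ∉ range c := by
    rintro ⟨t, ht⟩
    exact hγK₂ u hu (ht ▸ hc t)
  obtain ⟨ρ, hρ, hρc⟩ := exists_le_dist_of_notMem (isCompact_range c.continuous).isClosed hmc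
  have hn : 0 < ‖q - p‖ := norm_pos_iff.2 hqp
  obtain ⟨ε, hε, hε2, hε3⟩ : ∃ ε : ℝ, 0 < ε ∧ ε < 1 / 2 ∧ 4 * (ε * ‖q - p‖) < ρ := by
    refine ⟨min (1 / 4) (ρ / (8 * ‖q - p‖)), by positivity, ?_, ?_⟩
    · exact (min_le_left _ _).trans_lt (by norm_num)
    · have h1 := min_le_right (1 / 4) (ρ / (8 * ‖q - p‖))
      have h2 : min (1 / 4) (ρ / (8 * ‖q - p‖)) * ‖q - p‖ ≤ ρ / (8 * ‖q - p‖) * ‖q - p‖ :=
        mul_le_mul_of_nonneg_right h1 hn.le
      have h3 : ρ / (8 * ‖q - p‖) * ‖q - p‖ = ρ / 8 := by field_simp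
      rw [h3] at h2
      linarith
  set Kt : Set ℂ := range c ∪ segment ℝ p q with hKt
  refine cross_sep hpq hm c (fun t => hρc _ ⟨t, rfl⟩) hε hε2 hε3 ?_
  have hcK : range c ⊆ K₂ := by
    rintro _ ⟨t, rfl⟩
    exact hc t
  have hsub : D \ (Kc ∪ (Z₀ ∪ AR ∪ AL)) ⊆ Ktᶜ := by
    rintro z ⟨hzD, hz⟩ hzK
    have hzc : z ∉ Kc := fun h => hz (Or.inl h)
    have h0 := hDK z hzD hzc
    rcases hzK with h | h
    · rcases hcK h with ((h | h) | h) | (h | h)
      · exact hz (Or.inr (Or.inl (Or.inr h)))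
      · exact h0 (by rw [mem_singleton_iff.1 h]; exact r1)
      · exact h0 h
      · exact hz (Or.inr (Or.inr h))
      · exact h0 (by rw [mem_singleton_iff.1 h]; exact l1)
    · exact hz (Or.inr (Or.inl (Or.inl ⟨h, h0⟩)))
  have hγt : ∀ t ∈ Ioo s₀ s₁, t ≠ u → γ t ∈ Ktᶜ := by
    rintro t ht htu (h | h)
    · exact hγK₂ t ht (hcK h)
    · exact htu (hsegγ t ht h)
  have hball : ∀ z, dist z (γ u) < ρ → sd (γ u) (q - p) z ≠ 0 → z ∈ Ktᶜ := by
    rintro z hz hs (h | h)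
    · exact absurd (hρc z h) (not_le.2 hz)
    · exact hs (sd_seg hpq hm h)
  -- near times
  have hcont : Filter.Tendsto γ (𝓝 u) (𝓝 (γ u)) := (hγ.continuousAt (Ioo_mem_nhds hu.1 hu.2))
  obtain ⟨η', hη', hη2⟩ := Metric.tendsto_nhds_nhds.1 hcont ρ hρ
  have hzz : ∀ s : ℝ, |s| = ε → dist (γ u + s * (Complex.I * (q - p))) (γ u) < ρ := by
    intro s hs
    rw [dist_eq_norm, add_sub_cancel_left, norm_mul, norm_mul, Complex.norm_I, one_mul,
      Complex.norm_real, Real.norm_eq_abs, hs]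
    nlinarith [mul_pos hε hn]
  have hpiece : ∀ a b : ℝ, a ≤ b → (∀ t ∈ Icc a b, t ∈ Ioo s₀ s₁ ∧ t ≠ u) →
      JoinedIn Ktᶜ (γ a) (γ b) := by
    intro a b hab h
    have h1 : IsPathConnected (γ '' Icc a b) :=
      ((convex_Icc a b).isPathConnected ⟨a, le_rfl, hab⟩).image'
        (hγ.mono fun t ht => (h t ht).1)
    refine (h1.joinedIn _ ⟨a, ⟨le_rfl, hab⟩, rfl⟩ _ ⟨b, ⟨hab, le_rfl⟩, rfl⟩).mono ?_
    rintro _ ⟨t, ht, rfl⟩
    exact hγt t (h t ht).1 (h t ht).2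
  have hsegj : ∀ x y : ℂ, dist x (γ u) < ρ → dist y (γ u) < ρ →
      (sd (γ u) (q - p) x < 0 ∧ sd (γ u) (q - p) y < 0 ∨
        0 < sd (γ u) (q - p) x ∧ 0 < sd (γ u) (q - p) y) → JoinedIn Ktᶜ x y := by
    intro x y hx hy hs
    refine JoinedIn.of_segment_subset ?_
    rintro z ⟨a, b, ha, hb', hab, rfl⟩
    refine hball _ ?_ ?_
    · exact (convex_ball (γ u) ρ) hx hy ha hb' hab
    · rw [sd_conv _ _ _ _ hab]
      rcases hs with ⟨h1, h2⟩ | ⟨h1, h2⟩
      · have : a * sd (γ u) (q - p) x + b * sd (γ u) (q - p) y < 0 := by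
          rcases ha.eq_or_lt with h | h
          · have : b = 1 := by linarith
            rw [← h, this]
            linarith
          · nlinarith [mul_nonneg hb' (neg_pos.2 h2).le, mul_pos h (neg_pos.2 h1)]
        exact this.ne
      · have : 0 < a * sd (γ u) (q - p) x + b * sd (γ u) (q - p) y := by
          rcases ha.eq_or_lt with h | h
          · have : b = 1 := by linarith
            rw [← h, this]
            linarith
          · nlinarith [mul_nonneg hb' h2.le, mul_pos h h1]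
        exact this.ne'
  -- the two ends
  have j1 : JoinedIn Ktᶜ (γ u₀) (γ u - ε * (Complex.I * (q - p))) := by
    set v : ℝ := max ((u₀ + u) / 2) (u - min η η' / 2) with hv
    have hmn : 0 < min η η' := lt_min hη hη'
    have hvu : v < u := max_lt (by linarith [hu₀.2]) (by linarith)
    have hv0 : u₀ ≤ v := le_trans (by linarith [hu₀.2]) (le_max_left _ _)
    have hv1 : u - min η η' / 2 ≤ v := le_max_right _ _
    refine (hpiece u₀ v hv0 fun t ht => ⟨⟨lt_of_lt_of_le hu₀.1 ht.1, ?_⟩, ?_⟩).trans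
      (hsegj _ _ ?_ ?_ (Or.inl ⟨?_, ?_⟩))
    · linarith [ht.2, hu.2]
    · linarith [ht.2]
    · refine hη2 ?_
      rw [Real.dist_eq, abs_lt]
      constructor <;> linarith [min_le_right η η']
    · have := hzz (-ε) (by rw [abs_neg, abs_of_pos hε])
      have e : γ u - ε * (Complex.I * (q - p)) =
        γ u + ((-ε : ℝ) : ℂ) * (Complex.I * (q - p)) := by push_cast; ring
      rw [e]
      exact this
    · exact hb v ⟨by linarith [min_le_left η η'], hvu⟩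
    · rw [sd_sub _ _ hqp]
      linarith
  have j2 : JoinedIn Ktᶜ (γ u₁) (γ u + ε * (Complex.I * (q - p))) := by
    set v : ℝ := min ((u₁ + u) / 2) (u + min η η' / 2) with hv
    have hmn : 0 < min η η' := lt_min hη hη'
    have hvu : u < v := lt_min (by linarith [hu₁.1]) (by linarith)
    have hv0 : v ≤ u₁ := le_trans (min_le_left _ _) (by linarith [hu₁.1])
    have hv1 : v ≤ u + min η η' / 2 := min_le_right _ _
    refine ((hpiece v u₁ hv0 fun t ht => ⟨⟨?_, lt_of_le_of_lt ht.2 hu₁.2⟩, ?_⟩).symm).trans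
      (hsegj _ _ ?_ ?_ (Or.inr ⟨?_, ?_⟩))
    · linarith [ht.1, hu.1]
    · have := ht.1
      exact (by linarith : u < t).ne'
    · refine hη2 ?_
      rw [Real.dist_eq, abs_lt]
      constructor <;> linarith [min_le_right η η']
    · exact hzz ε (abs_of_pos hε)
    · exact hf v ⟨hvu, by linarith [min_le_left η η']⟩
    · rw [sd_add _ _ hqp]
      exact hε
  exact ((j2.symm.trans (hj.mono hsub).symm).trans j1)

end Vale.Agent.P167.QC.DT
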