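import Vale.Agent.P153.R2.TOP.Sep

/-!
# P167, general `q`, block DT (iii): crossing a closed curve once
-/

set_option autoImplicit false

open Set Metric Topology

namespace Vale.Agent.P167.QC.DT

open P153.TOP

theorem arg_lt_quarter {ε : ℝ} (h0 : 0 < ε) (h1 : ε < 1 / 2) :
    Complex.arg ⟨1 / 2, ε⟩ < Real.pi / 4 := by
  by_contra hcon
  push Not at hcon
  have h2 : |Complex.arg ⟨1 / 2, ε⟩| < Real.pi / 2 :=
    Complex.abs_arg_lt_pi_div_two_iff.2 (Or.inl (by norm_num))
  have h3 := (abs_lt.1 h2).2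
  have h4 : Real.tan (Real.pi / 4) ≤ Real.tan (Complex.arg ⟨1 / 2, ε⟩) := by
    rcases hcon.eq_or_lt with h | h
    · rw [← h]
    · exact (Real.tan_lt_tan_of_lt_of_lt_pi_div_two (by linarith [Real.pi_pos]) h3 h).le
  rw [Real.tan_pi_div_four, Complex.tan_arg] at h4
  simp only at h4
  linarith

theorem arg_gt_quarter {ε : ℝ} (h0 : 0 < ε) (h1 : ε < 1 / 2) :
    3 * Real.pi / 4 < Complex.arg ⟨-(1 / 2), ε⟩ := by
  have h2 : (⟨-(1 / 2), ε⟩ : ℂ) = -(⟨1 / 2, -ε⟩ : ℂ) := by
    apply Complex.ext <;> simp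
  have h3 : (⟨1 / 2, -ε⟩ : ℂ) = (starRingEnd ℂ) ⟨1 / 2, ε⟩ := by
    apply Complex.ext <;> simp
  have h4 := arg_lt_quarter h0 h1
  have h5 : Complex.arg ⟨1 / 2, ε⟩ ≠ Real.pi := by linarith [Real.pi_pos]
  rw [h2, Complex.arg_neg_eq_arg_add_pi_of_im_neg (by simpa using h0), h3, Complex.arg_conj,
    if_neg h5]
  linarith

theorem isCompact_seg (x y : ℂ) : IsCompact (segment ℝ x y) := by
  rw [segment_eq_image]
  exact isCompact_Icc.image (by fun_prop)

/-- **Crossing a closed curve once.** -/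
theorem cross_sep {p q m : ℂ} (hpq : p ≠ q) (hm : m = (p + q) / 2) (c : Path q p) {ρ ε : ℝ}
    (hc : ∀ t, ρ ≤ dist (c t) m) (hε : 0 < ε) (hε2 : ε < 1 / 2) (hερ : 4 * (ε * ‖q - p‖) < ρ) :
    ¬ JoinedIn (range c ∪ segment ℝ p q)ᶜ (m + ε * (Complex.I * (q - p)))
      (m - ε * (Complex.I * (q - p))) := by
  intro hj
  set zp : ℂ := m + ε * (Complex.I * (q - p)) with hzp
  set zm : ℂ := m - ε * (Complex.I * (q - p)) with hzm
  have hqp : q - p ≠ 0 := sub_ne_zero.2 hpq.symm
  have hn : 0 < ‖q - p‖ := norm_pos_iff.2 hqp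
  have hK : IsClosed (range c ∪ segment ℝ p q) :=
    (isCompact_range c.continuous).isClosed.union (isCompact_seg p q).isClosed
  obtain ⟨L, hL, hLe⟩ := logOn_of_joinedIn hK hj
  have hcK : ∀ t, c t ∈ range c ∪ segment ℝ p q := fun t => Or.inl ⟨t, rfl⟩
  -- along the segment
  have hseg : ∀ s ∈ Icc (-(1 / 2) : ℝ) (1 / 2), m + s * (q - p) ∈ segment ℝ p q := by
    intro s hs
    refine ⟨1 / 2 - s, 1 / 2 + s, by linarith [hs.2], by linarith [hs.1], by ring, ?_⟩
    rw [hm, Complex.real_smul, Complex.real_smul]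
    push_cast
    ring
  have hslit : ∀ s : ℝ, (s : ℂ) + ε * Complex.I ∈ Complex.slitPlane := by
    intro s
    rw [Complex.mem_slitPlane_iff]
    right
    simpa using hε.ne'
  have hG1 : ContinuousOn (fun s : ℝ => (starRingEnd ℂ) (Complex.log ((s : ℂ) + ε * Complex.I)) -
      Complex.log ((s : ℂ) + ε * Complex.I)) (Icc (-(1 / 2)) (1 / 2)) := by
    have h1 : ContinuousOn (fun s : ℝ => Complex.log ((s : ℂ) + ε * Complex.I))
        (Icc (-(1 / 2)) (1 / 2)) :=
      ContinuousOn.clog (by fun_prop) fun s _ => hslit s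
    exact (Complex.continuous_conj.comp_continuousOn h1).sub h1
  have hF1 : ContinuousOn (fun s : ℝ => L (m + s * (q - p))) (Icc (-(1 / 2)) (1 / 2)) :=
    hL.comp (by fun_prop) fun s hs => Or.inr (hseg s hs)
  have e1 := log_diff_const isPreconnected_Icc hF1 hG1 (fun s hs => by
      rw [hLe _ (Or.inr (hseg s hs)), Complex.exp_sub, Complex.exp_conj,
        Complex.exp_log (Complex.slitPlane_ne_zero (hslit s))]
      have a1 : m + s * (q - p) - zp = (q - p) * (s - ε * Complex.I) := by rw [hzp]; ring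
      have a2 : m + s * (q - p) - zm = (q - p) * (s + ε * Complex.I) := by rw [hzm]; ring
      beta_reduce
      rw [a1, a2, mul_div_mul_left _ _ hqp]
      congr 1
      simp [Complex.conj_I]
      ring)
    (x := 1 / 2) (y := -(1 / 2)) ⟨by norm_num, le_rfl⟩ ⟨le_rfl, by norm_num⟩
  -- along the curve
  have hd : ∀ t, zm ≠ c t ∧ ‖(c t - zp) / (c t - zm) - 1‖ < 1 := by
    intro t
    have h1 := hc t
    have h2 : ‖zm - m‖ = ε * ‖q - p‖ := by
      rw [hzm, sub_sub_cancel_left, norm_neg, norm_mul, norm_mul, Complex.norm_I, one_mul,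
        Complex.norm_real, Real.norm_of_nonneg hε.le]
    have h3 : ρ - ε * ‖q - p‖ ≤ ‖c t - zm‖ := by
      rw [dist_eq_norm] at h1
      have := norm_add_le (c t - zm) (zm - m)
      rw [sub_add_sub_cancel, h2] at this
      linarith
    have h4 : 0 < ‖c t - zm‖ := by
      have : 0 < ε * ‖q - p‖ := by positivity
      linarith
    have h5 : c t - zm ≠ 0 := norm_pos_iff.1 h4
    refine ⟨fun h => h5 (by rw [h, sub_self]), ?_⟩
    have h6 : (c t - zp) / (c t - zm) - 1 = (zm - zp) / (c t - zm) := by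
      field_simp
      ring
    have h7 : ‖zm - zp‖ = 2 * (ε * ‖q - p‖) := by
      have : zm - zp = (-2 * ε : ℝ) * (Complex.I * (q - p)) := by
        rw [hzm, hzp]; push_cast; ring
      rw [this, norm_mul, norm_mul, Complex.norm_I, one_mul, Complex.norm_real, Real.norm_eq_abs,
        abs_mul, abs_of_pos hε]
      norm_num
      ring
    rw [h6, norm_div, div_lt_one h4, h7]
    linarith
  have hslit2 : ∀ t, (c t - zp) / (c t - zm) ∈ Complex.slitPlane := by
    intro t
    have := Complex.mem_slitPlane_of_norm_lt_one (hd t).2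
    simpa using this
  have hF2 : ContinuousOn (fun t : unitInterval => L (c t)) univ :=
    hL.comp c.continuous.continuousOn fun t _ => hcK t
  have hG2 : ContinuousOn (fun t : unitInterval => Complex.log ((c t - zp) / (c t - zm))) univ := by
    refine ContinuousOn.clog ?_ fun t _ => hslit2 t
    refine (c.continuous.sub continuous_const).continuousOn.div
      (c.continuous.sub continuous_const).continuousOn fun t _ h => ?_
    exact (hd t).1 (sub_eq_zero.1 h).symm
  have e2 := log_diff_const isPreconnected_univ hF2 hG2 (fun t _ => by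
      rw [hLe _ (hcK t), Complex.exp_log (Complex.slitPlane_ne_zero (hslit2 t))])
    (x := 0) (y := 1) (mem_univ _) (mem_univ _)
  simp only [c.source, c.target] at e2
  have b1 : m + ((1 / 2 : ℝ) : ℂ) * (q - p) = q := by rw [hm]; push_cast; ring
  have b2 : m + ((-(1 / 2) : ℝ) : ℂ) * (q - p) = p := by rw [hm]; push_cast; ring
  simp only [b1, b2] at e1
  -- imaginary parts
  have c1 : (((1 / 2 : ℝ) : ℂ) + ε * Complex.I) = ⟨1 / 2, ε⟩ := by
    apply Complex.ext <;> simp
  have c2 : (((-(1 / 2) : ℝ) : ℂ) + ε * Complex.I) = ⟨-(1 / 2), ε⟩ := by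
    apply Complex.ext <;> simp
  rw [c1, c2] at e1
  have i1 := congrArg Complex.im e1
  have i2 := congrArg Complex.im e2
  simp only [Complex.sub_im, Complex.conj_im, Complex.log_im] at i1 i2
  have r1 : ∀ t, |Complex.arg ((c t - zp) / (c t - zm))| < Real.pi / 2 := by
    intro t
    refine Complex.abs_arg_lt_pi_div_two_iff.2 (Or.inl ?_)
    have h1 := (Complex.abs_re_le_norm _).trans_lt (hd t).2
    rw [Complex.sub_re, Complex.one_re] at h1
    have := (abs_lt.1 h1).1
    linarith
  have r2 := abs_lt.1 (r1 0)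
  have r3 := abs_lt.1 (r1 1)
  simp only [c.source, c.target] at r2 r3
  have r4 := arg_lt_quarter hε hε2
  have r5 := arg_gt_quarter hε hε2
  linarith [r2.1, r2.2, r3.1, r3.2]

end Vale.Agent.P167.QC.DT
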