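import Vale.Agent.P167.QC.DT.Main

/-!
# P167, general `q`, block DT (iii): the Euclidean form of the separation
-/

set_option autoImplicit false

open Set Relation

namespace Vale.Agent.P167.QC.DT

open Vale.Agent.P167
open Vale.Agent.P167.E6 Vale.Agent.P167.E2
open Vale.Agent.P167.FK (Bq)
open Vale.Agent.P167.QN (Ann mem_Ann FreshP FreshD rdq)
open Vale.Agent.P167.H718 (Dq)
open Vale.Agent.P167.H192 (cfg)

/-- The site near a point. -/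
noncomputable def ctr (δ : ℝ) (z : ℂ) : ℤ × ℤ := (⌊(Th δ z).re⌋, ⌊(Th δ z).im⌋)

/-- The inner radius. -/
noncomputable def rin (δ ρ : ℝ) : ℤ := ⌈3 / 2 * (ρ / δ)⌉ + 3

/-- The outer radius. -/
noncomputable def rout (δ ρ : ℝ) : ℤ := ⌊ρ / δ⌋ - 3

theorem ctr_le (δ : ℝ) (z : ℂ) : 0 ≤ (Th δ z).re - (ctr δ z).1 ∧ (Th δ z).re - (ctr δ z).1 ≤ 1 ∧
    0 ≤ (Th δ z).im - (ctr δ z).2 ∧ (Th δ z).im - (ctr δ z).2 ≤ 1 := by
  unfold ctr
  have h1 := Int.floor_le (Th δ z).re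
  have h2 := Int.lt_floor_add_one (Th δ z).re
  have h3 := Int.floor_le (Th δ z).im
  have h4 := Int.lt_floor_add_one (Th δ z).im
  exact ⟨by linarith, by linarith, by linarith, by linarith⟩

theorem Th_sub {δ : ℝ} (z z₀ : ℂ) :
    (Th δ z).re - (Th δ z₀).re = ((z - z₀).re - (z - z₀).im) / δ ∧
    (Th δ z).im - (Th δ z₀).im = ((z - z₀).re + (z - z₀).im) / δ := by
  unfold Th
  rw [Complex.div_ofReal_re, Complex.div_ofReal_re, Complex.div_ofReal_im, Complex.div_ofReal_im]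
  simp only [Complex.mul_re, Complex.mul_im, Complex.add_re, Complex.add_im, Complex.one_re,
    Complex.one_im, Complex.I_re, Complex.I_im, Complex.sub_re, Complex.sub_im]
  constructor <;> ring

theorem Th_le {δ : ℝ} (hδ : 0 < δ) (z z₀ : ℂ) :
    |(Th δ z).re - (Th δ z₀).re| ≤ 3 / 2 * (dist z z₀ / δ) ∧
    |(Th δ z).im - (Th δ z₀).im| ≤ 3 / 2 * (dist z z₀ / δ) := by
  obtain ⟨h1, h2⟩ := Th_sub (δ := δ) z z₀
  rw [h1, h2, abs_div, abs_div, abs_of_pos hδ, ← mul_div_assoc]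
  have hd : dist z z₀ ^ 2 = (z - z₀).re ^ 2 + (z - z₀).im ^ 2 := by
    rw [dist_eq_norm, Complex.sq_norm, Complex.normSq_apply]
    ring
  have h0 : 0 ≤ dist z z₀ := dist_nonneg
  constructor
  · refine div_le_div_of_nonneg_right ?_ hδ.le
    refine abs_le_of_sq_le_sq ?_ (by positivity)
    nlinarith [sq_nonneg ((z - z₀).re + (z - z₀).im)]
  · refine div_le_div_of_nonneg_right ?_ hδ.le
    refine abs_le_of_sq_le_sq ?_ (by positivity)
    nlinarith [sq_nonneg ((z - z₀).re - (z - z₀).im)]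

theorem Th_ge {δ : ℝ} (hδ : 0 < δ) (z z₀ : ℂ) :
    dist z z₀ / δ ≤ |(Th δ z).re - (Th δ z₀).re| ∨
    dist z z₀ / δ ≤ |(Th δ z).im - (Th δ z₀).im| := by
  by_contra hn
  push Not at hn
  obtain ⟨h1, h2⟩ := Th_sub (δ := δ) z z₀
  rw [h1, h2, abs_div, abs_div, abs_of_pos hδ, div_lt_div_iff_of_pos_right hδ,
    div_lt_div_iff_of_pos_right hδ] at hn
  have hd : dist z z₀ ^ 2 = (z - z₀).re ^ 2 + (z - z₀).im ^ 2 := by
    rw [dist_eq_norm, Complex.sq_norm, Complex.normSq_apply]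
    ring
  have h0 : 0 ≤ dist z z₀ := dist_nonneg
  have e1 := sq_lt_sq' (by linarith [abs_nonneg ((z - z₀).re - (z - z₀).im)]) hn.1
  have e2 := sq_lt_sq' (by linarith [abs_nonneg ((z - z₀).re + (z - z₀).im)]) hn.2
  rw [sq_abs] at e1 e2
  nlinarith

theorem rin_bd {δ ρ : ℝ} : 3 / 2 * (ρ / δ) + 3 ≤ rin δ ρ ∧ (rin δ ρ : ℝ) ≤ 3 / 2 * (ρ / δ) + 4 := by
  unfold rin
  have h1 := Int.le_ceil (3 / 2 * (ρ / δ))
  have h2 := Int.ceil_lt_add_one (3 / 2 * (ρ / δ))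
  push_cast
  exact ⟨by linarith, by linarith⟩

theorem rout_bd {δ ρ : ℝ} : ρ / δ - 4 ≤ rout δ ρ ∧ (rout δ ρ : ℝ) ≤ ρ / δ - 3 := by
  unfold rout
  have h1 := Int.floor_le (ρ / δ)
  have h2 := Int.lt_floor_add_one (ρ / δ)
  push_cast
  exact ⟨by linarith, by linarith⟩

/-- The ratio of the radii. -/
theorem ratio {δ ρ₁ ρ₂ : ℝ} (hδ : 0 < δ) (h1 : δ ≤ ρ₁) (h2 : 16 * ρ₁ ≤ ρ₂) :
    1 ≤ rin δ ρ₁ ∧ rin δ ρ₁ < rout δ ρ₂ ∧ ((rin δ ρ₁ : ℝ) / rout δ ρ₂) ≤ 8 * (ρ₁ / ρ₂) := by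
  obtain ⟨a1, a2⟩ := rin_bd (δ := δ) (ρ := ρ₁)
  obtain ⟨b1, b2⟩ := rout_bd (δ := δ) (ρ := ρ₂)
  have e1 : 1 ≤ ρ₁ / δ := (one_le_div hδ).2 h1
  have e2 : 16 * (ρ₁ / δ) ≤ ρ₂ / δ := by
    rw [← mul_div_assoc]
    exact div_le_div_of_nonneg_right h2 hδ.le
  have hρ1 : 0 < ρ₁ := hδ.trans_le h1
  have hρ2 : 0 < ρ₂ := by linarith
  refine ⟨?_, ?_, ?_⟩
  · have : ((1 : ℤ) : ℝ) ≤ rin δ ρ₁ := by push_cast; linarith
    exact_mod_cast this
  · have : (rin δ ρ₁ : ℝ) < rout δ ρ₂ := by linarith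
    exact_mod_cast this
  · have e3 : ρ₁ / ρ₂ = (ρ₁ / δ) / (ρ₂ / δ) := by
      rw [div_div_div_cancel_right₀ hδ.ne']
    rw [e3, ← mul_div_assoc, div_le_div_iff₀ (by linarith) (by linarith)]
    nlinarith

section

variable {n : ℕ} {p : ZMod n → ℤ × ℤ} {S : Finset (ℤ × ℤ)} {k : ℕ} {A : Finset (Sym2 (ℤ × ℤ))}
  {δ : ℝ}

/-- The curve is near the squares which it reads. -/
theorem near_sq (hδ : 0 < δ) (hp : IsPolygon p) (hS : Encloses p S) (hk : k < n)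
    (hA : A ⊆ edges S) {s : ℝ} (h0 : 1 ≤ s) (h1 : s ≤ nu p k A) :
    ∃ j < len p k A, (j : ℝ) + 1 ≤ s ∧ (s < j + 2 ∨ j + 1 = len p k A) ∧
      ((hdv (ee p k A j)).1 : ℝ) - 1 / 4 ≤ (Th δ (pl p k δ A s)).re ∧
      (Th δ (pl p k δ A s)).re ≤ (hdv (ee p k A j)).1 + 5 / 4 ∧
      ((hdv (ee p k A j)).2 : ℝ) - 1 / 4 ≤ (Th δ (pl p k δ A s)).im ∧
      (Th δ (pl p k δ A s)).im ≤ (hdv (ee p k A j)).2 + 5 / 4 := by
  have hnu : (nu p k A : ℝ) = len p k A + 2 := by unfold nu; push_cast; ring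
  have hlen := len_pos hp hS hk hA
  rw [hnu] at h1
  rcases le_or_gt ((len p k A : ℝ) + 1) s with h2 | h2
  · obtain ⟨m, hm⟩ : ∃ m, len p k A = m + 1 := ⟨len p k A - 1, by omega⟩
    have hm' : (len p k A : ℝ) = m + 1 := by rw [hm]; push_cast; ring
    refine ⟨m, by omega, by linarith, Or.inr hm.symm, ?_⟩
    rw [pl_last hp hS hk hA h2 h1, Th_Ti hδ]
    obtain ⟨α, β, b1, b2, b3, b4, b5, b6, -⟩ :=
      piece_u (cfg (wiredOpen p k A)) (ee p k A m) (t := 1) zero_le_one le_rfl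
    have e1 : Pc (cfg (wiredOpen p k A)) (ee p k A m) 1 = Sd (ee p k A (len p k A)) (1 / 2) := by
      rw [Pc_eq, ← ee_succ, hm]
      push_cast
      ring
    rw [e1] at b1 b2
    obtain ⟨a1, a2, a3, a4⟩ := ls_rs (ee p k A (len p k A))
    have c1 : ((rs (ee p k A (len p k A))).1 : ℝ) - (ls (ee p k A (len p k A))).1 ≤ 1 := by
      exact_mod_cast a1
    have c2 : ((ls (ee p k A (len p k A))).1 : ℝ) - (rs (ee p k A (len p k A))).1 ≤ 1 := by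
      exact_mod_cast a2
    have c3 : ((rs (ee p k A (len p k A))).2 : ℝ) - (ls (ee p k A (len p k A))).2 ≤ 1 := by
      exact_mod_cast a3
    have c4 : ((ls (ee p k A (len p k A))).2 : ℝ) - (rs (ee p k A (len p k A))).2 ≤ 1 := by
      exact_mod_cast a4
    set E := ee p k A (len p k A) with hE
    set ε := (s - (len p k A + 1)) / 4 with hε
    have hε0 : 0 ≤ ε := by rw [hε]; linarith
    have hε1 : ε ≤ 1 / 4 := by rw [hε]; linarith
    have d1 : (Sd E (1 / 2 + ε)).re = (Sd E (1 / 2)).re + ε * ((rs E).1 - (ls E).1) := by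
      simp only [Sd]; ring
    have d2 : (Sd E (1 / 2 + ε)).im = (Sd E (1 / 2)).im + ε * ((rs E).2 - (ls E).2) := by
      simp only [Sd]; ring
    rw [d1, d2, b1, b2]
    refine ⟨?_, ?_, ?_, ?_⟩ <;> nlinarith
  · have h3 : (0 : ℝ) ≤ s - 1 := by linarith
    have h4 := Nat.floor_le h3
    have h5 := Nat.lt_floor_add_one (s - 1)
    set j := ⌊s - 1⌋₊ with hj
    have h6 : j < len p k A := by
      have : (j : ℝ) < len p k A := by linarith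
      exact_mod_cast this
    refine ⟨j, h6, by linarith, Or.inl (by linarith), ?_⟩
    rw [pl_mid h6 (by linarith) (by linarith), Th_Ti hδ]
    obtain ⟨α, β, b1, b2, b3, b4, b5, b6, -⟩ :=
      piece_u (cfg (wiredOpen p k A)) (ee p k A j) (t := s - j - 1) (by linarith) (by linarith)
    rw [b1, b2]
    exact ⟨by linarith, by linarith, by linarith, by linarith⟩

/-- The curve after the index `κ` is cut by a connected set in the annulus `(z₀; ρ₁, ρ₂)`: `Z`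
contains the point of the time `u` between `s` and `s'`, and separates the tip from the target in
the domain which remains at the index `κ`. -/
def CutAt (p : ZMod n → ℤ × ℤ) (k : ℕ) (δ : ℝ) (S : Finset (ℤ × ℤ))
    (A : Finset (Sym2 (ℤ × ℤ))) (κ : ℕ) (z₀ : ℂ) (ρ₁ ρ₂ s s' : ℝ) : Prop :=
  ∃ (Z : Set ℂ) (u : ℝ), u ∈ Ioo (κ : ℝ) (nu p k A) ∧ min s s' < u ∧ u < max s s' ∧
    pl p k δ A u ∈ Z ∧ IsPreconnected Z ∧ Z ⊆ Om δ S \ pl p k δ A '' Icc 0 (κ : ℝ) ∧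
    (∀ z ∈ Z, ρ₁ < dist z z₀ ∧ dist z z₀ < ρ₂) ∧
    ∀ u₀ ∈ Ioo (κ : ℝ) u, ∀ u₁ ∈ Ioo u (nu p k A : ℝ),
      ¬ JoinedIn (Om δ S \ (pl p k δ A '' Icc 0 (κ : ℝ) ∪ Z)) (pl p k δ A u₀) (pl p k δ A u₁)

/-- **Separation, Euclidean form.** -/
theorem dt_euc (hδ : 0 < δ) (hp : IsPolygon p) (hS : Encloses p S) (hk : k + 1 < n)
    (hA : A ⊆ edges S) {κ : ℕ} (hκ : 1 ≤ κ) {z₀ : ℂ} {ρ₁ ρ₂ : ℝ} (h1 : δ ≤ ρ₁)
    (h2 : 16 * ρ₁ ≤ ρ₂)
    (hP : ¬ FreshP (ctr δ z₀) (rin δ ρ₁) (rout δ ρ₂) (Dq S p k \ rdq p k A (κ - 1))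
      (cfg (wiredOpen p k A)))
    (hD : ¬ FreshD (ctr δ z₀) (rin δ ρ₁) (rout δ ρ₂) (Dq S p k \ rdq p k A (κ - 1))
      (cfg (wiredOpen p k A))) {s s' : ℝ} (hs : s ∈ Icc (κ : ℝ) (nu p k A))
    (hs' : s' ∈ Icc (κ : ℝ) (nu p k A)) (hin : dist (pl p k δ A s) z₀ ≤ ρ₁)
    (hout : ρ₂ ≤ dist (pl p k δ A s') z₀) : CutAt p k δ S A κ z₀ ρ₁ ρ₂ s s' := by
  have hk' : k < n := by omega
  have hκ' : (1 : ℝ) ≤ κ := by exact_mod_cast hκ
  obtain ⟨r1, r2, -⟩ := ratio hδ h1 h2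
  obtain ⟨a1, a2⟩ := rin_bd (δ := δ) (ρ := ρ₁)
  obtain ⟨b1, b2⟩ := rout_bd (δ := δ) (ρ := ρ₂)
  obtain ⟨c1, c2, c3, c4⟩ := ctr_le δ z₀
  obtain ⟨w, w1, w2, w3, w4, w5, w6, w7⟩ := near_sq hδ hp hS hk' hA (hκ'.trans hs.1) hs.2
  obtain ⟨t, t1, t2, t3, t4, t5, t6, t7⟩ := near_sq hδ hp hS hk' hA (hκ'.trans hs'.1) hs'.2
  have hw : hdv (ee p k A w) ∈ Bq (ctr δ z₀) (rin δ ρ₁) := by
    obtain ⟨d1, d2⟩ := Th_le hδ (pl p k δ A s) z₀
    have d3 : 3 / 2 * (dist (pl p k δ A s) z₀ / δ) ≤ 3 / 2 * (ρ₁ / δ) := by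
      refine mul_le_mul_of_nonneg_left (div_le_div_of_nonneg_right hin hδ.le) (by norm_num)
    have d4 := abs_le.1 (d1.trans d3)
    have d5 := abs_le.1 (d2.trans d3)
    unfold FK.Bq
    rw [Finset.mem_product, Finset.mem_Ico, Finset.mem_Ico]
    have key : ∀ (v c : ℤ) (X Y : ℝ), (v : ℝ) - 1 / 4 ≤ X → X ≤ v + 5 / 4 → 0 ≤ Y - c →
        Y - c ≤ 1 → -(3 / 2 * (ρ₁ / δ)) ≤ X - Y → X - Y ≤ 3 / 2 * (ρ₁ / δ) →
        c - rin δ ρ₁ ≤ v ∧ v < c + rin δ ρ₁ := by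
      intro v c X Y g1 g2 g3 g4 g5 g6
      constructor
      · have : (c : ℝ) - rin δ ρ₁ ≤ v := by linarith
        exact_mod_cast this
      · have : (v : ℝ) < c + rin δ ρ₁ := by linarith
        exact_mod_cast this
    exact ⟨key _ _ _ _ w4 w5 c1 c2 d4.1 d4.2, key _ _ _ _ w6 w7 c3 c4 d5.1 d5.2⟩
  have ht : hdv (ee p k A t) ∉ Bq (ctr δ z₀) (rout δ ρ₂) := by
    intro hmem
    unfold FK.Bq at hmem
    rw [Finset.mem_product, Finset.mem_Ico, Finset.mem_Ico] at hmem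
    have d0 : ρ₂ / δ ≤ dist (pl p k δ A s') z₀ / δ := div_le_div_of_nonneg_right hout hδ.le
    have key : ∀ (v c : ℤ) (X Y : ℝ), (v : ℝ) - 1 / 4 ≤ X → X ≤ v + 5 / 4 → 0 ≤ Y - c →
        Y - c ≤ 1 → c - rout δ ρ₂ ≤ v → v < c + rout δ ρ₂ → |X - Y| < ρ₂ / δ := by
      intro v c X Y g1 g2 g3 g4 g5 g6
      have g5' : (c : ℝ) - rout δ ρ₂ ≤ v := by exact_mod_cast g5
      have g6' : (v : ℝ) + 1 ≤ c + rout δ ρ₂ := by exact_mod_cast g6
      rw [abs_lt]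
      exact ⟨by linarith, by linarith⟩
    rcases Th_ge hδ (pl p k δ A s') z₀ with d1 | d1
    · linarith [key _ _ _ _ t4 t5 c1 c2 hmem.1.1 hmem.1.2]
    · linarith [key _ _ _ _ t6 t7 c3 c4 hmem.2.1 hmem.2.2]
  have hwt : w ≠ t := by
    rintro rfl
    have e1 := nm_of_in hw (cor_ls_hdv _).1
    have e2 := nm_of_out ht (cor_ls_hdv _).1
    omega
  have hκw : κ ≤ w + 1 ∧ κ ≤ t + 1 := by
    have f1 : ∀ j : ℕ, ∀ x : ℝ, (κ : ℝ) ≤ x → x < j + 2 → κ ≤ j + 1 := by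
      intro j x g1 g2
      have : (κ : ℝ) < ((j + 2 : ℕ) : ℝ) := by push_cast; linarith
      have : κ < j + 2 := by exact_mod_cast this
      omega
    rcases w3 with w3 | w3 <;> rcases t3 with t3 | t3
    · exact ⟨f1 w s hs.1 w3, f1 t s' hs'.1 t3⟩
    · have := f1 w s hs.1 w3
      exact ⟨this, by omega⟩
    · have := f1 t s' hs'.1 t3
      exact ⟨by omega, this⟩
    · omega
  have hτ : ((κ - 1 : ℕ) : ℝ) + 1 = κ := by
    rw [Nat.cast_sub hκ]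
    push_cast
    ring
  rw [hdv_ee] at hw ht
  obtain ⟨Z, u, g1, g2, g3, g4, g5, g6, g7, g8⟩ := dt_sep hδ hp hS hk hA r2
    (τ := κ - 1) (w := w) (t := t) (by omega) (by omega) w1 t1 hw ht hP hD
  rw [hτ] at g1 g6 g8
  refine ⟨Z, u, g1, ?_, ?_, g4, g5, g6, fun z hz => ?_, g8⟩
  · rcases Nat.lt_or_gt_of_ne hwt with h | h
    · have h3 : s < u := by
        rw [min_eq_left h.le] at g2
        rcases w3 with w3 | w3
        · linarith
        · omega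
      exact lt_of_le_of_lt (min_le_left _ _) h3
    · have h3 : s' < u := by
        rw [min_eq_right h.le] at g2
        rcases t3 with t3 | t3
        · linarith
        · omega
      exact lt_of_le_of_lt (min_le_right _ _) h3
  · rcases Nat.lt_or_gt_of_ne hwt with h | h
    · rw [max_eq_right h.le] at g3
      exact lt_of_lt_of_le (by linarith) (le_max_right _ _)
    · rw [max_eq_left h.le] at g3
      exact lt_of_lt_of_le (by linarith) (le_max_left _ _)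
  · obtain ⟨k1, k2, k3⟩ := g7 z hz
    rw [abs_le] at k1 k2
    obtain ⟨l1, l2⟩ := Th_le hδ z z₀
    rw [abs_le] at l1 l2
    have hd0 : 0 ≤ dist z z₀ / δ := div_nonneg dist_nonneg hδ.le
    constructor
    · have h3 : ρ₁ / δ < dist z z₀ / δ := by
        rcases k3 with k3 | k3
        · rcases le_abs.1 k3 with k3 | k3 <;> linarith
        · rcases le_abs.1 k3 with k3 | k3 <;> linarith
      exact (div_lt_div_iff_of_pos_right hδ).1 h3
    · have h3 : dist z z₀ / δ < ρ₂ / δ := by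
        rcases Th_ge hδ z z₀ with h3 | h3
        · rcases le_abs.1 h3 with h3 | h3 <;> linarith
        · rcases le_abs.1 h3 with h3 | h3 <;> linarith
      exact (div_lt_div_iff_of_pos_right hδ).1 h3

end

end Vale.Agent.P167.QC.DT
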