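import Vale.Agent.P167.QC.DT.Win
import Vale.Agent.P167.QN.Farm
import Vale.Agent.P167.E2.Curve

/-!
# P167, general `q`, block DT (iii): the exits of the crossings
-/

set_option autoImplicit false

open Set Relation

namespace Vale.Agent.P167.QC.DT

open Vale.Agent.P167 Vale.Agent.P145.FB
open Vale.Agent.P167.E6 Vale.Agent.P167.E2
open Vale.Agent.P167.FKA (Cor)
open Vale.Agent.P167.FK (Bq)
open Vale.Agent.P167.QN (Ann mem_Ann FreshP FreshD rdq)
open Vale.Agent.P167.H718 (Dq wE mem_wE mem_Dq' mem_wiredOpen)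
open Vale.Agent.P167.H192 (cfg ed)

/-- The coordinates of the squares. -/
noncomputable def Ti (δ : ℝ) (X : ℂ) : ℂ := (δ : ℂ) * (X / (1 + Complex.I))

/-! ### corners -/

theorem face_edge' {S : Finset (ℤ × ℤ)} {v u : ℤ × ℤ} (hc : Cor v u) (ho : (u.1 + u.2) % 2 = 1)
    (h : H192.rf' u ∈ S) : ed v ∈ edges S := by
  obtain ⟨h1, h2⟩ := hc
  by_cases hv : Even (v.1 + v.2)
  · have hv' := Int.even_iff.1 hv
    have e1 : ed v = s(H192.ea v, H192.ea v + dir 0) := by
      unfold H192.ed H192.eb H192.ea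
      rw [if_pos hv, dir0]
      simp
    rw [e1, mem_edges]
    have h3 : H192.rf' u = face (H192.ea v) 0 ∨ H192.rf' u = face (H192.ea v) (0 - 1) := by
      have e3 : (0 : Fin 4) - 1 = 3 := by decide
      rw [e3, face0, face3]
      unfold H192.rf' H192.ea
      rw [Prod.ext_iff, Prod.ext_iff]
      simp only [Prod.fst_add, Prod.snd_add]
      omega
    rcases h3 with h3 | h3
    · exact Or.inl (h3 ▸ h)
    · exact Or.inr (h3 ▸ h)
  · have hv' : (v.1 + v.2) % 2 = 1 := by rw [Int.even_iff] at hv; omega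
    have e1 : ed v = s(H192.ea v, H192.ea v + dir 1) := by
      unfold H192.ed H192.eb H192.ea
      rw [if_neg hv, dir1]
      simp
    rw [e1, mem_edges]
    have h3 : H192.rf' u = face (H192.ea v) 1 ∨ H192.rf' u = face (H192.ea v) (1 - 1) := by
      have e3 : (1 : Fin 4) - 1 = 0 := by decide
      rw [e3, face0, face1]
      unfold H192.rf' H192.ea
      rw [Prod.ext_iff, Prod.ext_iff]
      simp only [Prod.fst_add, Prod.snd_add]
      omega
    rcases h3 with h3 | h3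
    · exact Or.inl (h3 ▸ h)
    · exact Or.inr (h3 ▸ h)

theorem cor_ro (a : ℤ × ℤ) (r : Fin 4) : Cor (H192.sq s(a, a + dir r)) (H192.ro a) ∧
    Cor (H192.sq s(a, a + dir r)) (H192.ro (a + dir r)) := by
  rw [H192.sq_mk]
  unfold FKA.Cor H192.ro
  rcases H192.dir_cases r with h | h | h | h <;> rw [h] <;> simp only [Prod.fst_add, Prod.snd_add] <;>
    omega

theorem even_corner {a : ℤ × ℤ} {r : Fin 4} {u : ℤ × ℤ} (hc : Cor (H192.sq s(a, a + dir r)) u)
    (he : (u.1 + u.2) % 2 = 0) : u = H192.ro a ∨ u = H192.ro (a + dir r) := by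
  rw [H192.sq_mk] at hc
  unfold FKA.Cor H192.ro at hc
  unfold H192.ro
  rw [Prod.ext_iff, Prod.ext_iff]
  rcases H192.dir_cases r with h | h | h | h <;> rw [h] at hc ⊢ <;>
    simp only [Prod.fst_add, Prod.snd_add] at hc ⊢ <;> omega

theorem opp_corner {v s s' u : ℤ × ℤ} (h1 : s'.1 = s.1 + 1 ∨ s'.1 = s.1 - 1)
    (h2 : s'.2 = s.2 + 1 ∨ s'.2 = s.2 - 1) (h3 : (min s.1 s'.1, min s.2 s'.2) = v)
    (hc : Cor v u) (he : (u.1 + u.2) % 2 = (s.1 + s.2) % 2) : u = s ∨ u = s' := by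
  subst h3
  unfold FKA.Cor at hc
  rw [Prod.ext_iff, Prod.ext_iff]
  simp only at hc ⊢
  omega

/-- The centres of the exterior faces are not in the domain. -/
theorem centre_out {δ : ℝ} (hδ : 0 < δ) {S : Finset (ℤ × ℤ)} {f : ℤ × ℤ} (hf : f ∉ S) :
    Ti δ (P2 (H192.rf f)) ∉ Om δ S := by
  have h1 : P2 (H192.rf f) / (1 + Complex.I) = ⟨f.1 + 1 / 2, f.2 + 1 / 2⟩ := by
    have h0 : (1 + Complex.I : ℂ) ≠ 0 := by
      intro h
      have := congrArg Complex.re h
      simp at this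
    rw [div_eq_iff h0]
    unfold P2 H192.rf
    apply Complex.ext <;> simp <;> ring
  unfold Ti
  rw [h1, mem_Om hδ]
  rintro ⟨g, hg, g1, g2, g3, g4⟩
  simp only at g1 g2 g3 g4
  have key : ∀ a b : ℤ, (a : ℝ) - 3 / 8 < b + 1 / 2 → (b : ℝ) + 1 / 2 < a + 11 / 8 → b = a := by
    intro a b h1 h2
    have e1 : a < b + 1 := by
      have : (a : ℝ) < ((b + 1 : ℤ) : ℝ) := by push_cast; linarith
      exact_mod_cast this
    have e2 : b < a + 1 := by
      have : (b : ℝ) < ((a + 1 : ℤ) : ℝ) := by push_cast; linarith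
      exact_mod_cast this
    omega
  have : f = g := Prod.ext (key _ _ g1 g2) (key _ _ g3 g4)
  exact hf (this ▸ hg)

/-! ### the path -/

variable {n : ℕ} {p : ZMod n → ℤ × ℤ} {S : Finset (ℤ × ℤ)} {k : ℕ} {A : Finset (Sym2 (ℤ × ℤ))}

/-- The medial edges of the path, as sides. -/
noncomputable def ee (p : ZMod n → ℤ × ℤ) (k : ℕ) (A : Finset (Sym2 (ℤ × ℤ))) (j : ℕ) : Ed :=
  H192.me (run p k A j)

/-- The sides which the path crosses after the time `τ`. -/
def FF (p : ZMod n → ℤ × ℤ) (k : ℕ) (A : Finset (Sym2 (ℤ × ℤ))) (τ : ℕ) : Set Ed :=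
  {e | ∃ j, τ < j ∧ j ≤ len p k A ∧ e = ee p k A j}

theorem ee_succ (j : ℕ) : ee p k A (j + 1) = nx (cfg (wiredOpen p k A)) (ee p k A j) := by
  unfold ee
  rw [run_succ, H192.nx_cfg]

theorem hdv_ee (j : ℕ) : hdv (ee p k A j) = H192.sq (ahead (run p k A j)) := H192.hdv_me _

theorem ee_inj (hp : IsPolygon p) (hS : Encloses p S) (hk : k + 1 < n) (hA : A ⊆ edges S)
    {i j : ℕ} (hi : i ≤ len p k A) (hj : j ≤ len p k A) (h : ee p k A i = ee p k A j) : i = j :=
  run_inj' hp hS hk hA i hi j hj (H192.me_inj h)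

theorem not_FF (hp : IsPolygon p) (hS : Encloses p S) (hk : k + 1 < n) (hA : A ⊆ edges S)
    {τ j : ℕ} (hj : j ≤ τ) (hτ : τ ≤ len p k A) : ee p k A j ∉ FF p k A τ := by
  rintro ⟨i, h1, h2, h3⟩
  have := ee_inj hp hS hk hA (hj.trans hτ) h2 h3
  omega

/-! ### the outer side of the wired arc -/

/-- Around the vertex `p i` on the outer side, all intermediate medial edges. -/
theorem around_fst (hp : IsPolygon p) (hS : Encloses p S) {ω : Set (Sym2 (ℤ × ℤ))}
    (hω : ω ⊆ edges S) (i : ZMod n) {m : ℕ} (hm : m ≤ (ro p i - ri p i).val - 1) :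
    ((next ω)^[m] (p i, ri p i)).1 = p i := by
  have h0 : ro p i ≠ ri p i := (ri_ne_ro hp hS).symm
  have h1 : 0 < (ro p i - ri p i).val := by
    rw [Nat.pos_iff_ne_zero]
    intro h
    exact h0 (sub_eq_zero.1 (Fin.ext h))
  rw [around hp hS hω i m (by omega)]

theorem wired_one (hp : IsPolygon p) (hS : Encloses p S) (hA : A ⊆ edges S) {i : ℕ} (hk : k ≤ i)
    (hi : i + 1 < n) : ∃ a, (next (wiredOpen p k A))^[a] (p (i : ZMod n), ro p (i : ZMod n) - 1) =
      (p ((i + 1 : ℕ) : ZMod n), ro p ((i + 1 : ℕ) : ZMod n) - 1) ∧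
      ∀ m, 1 ≤ m → m ≤ a →
        ((next (wiredOpen p k A))^[m] (p (i : ZMod n), ro p (i : ZMod n) - 1)).1 =
          p ((i + 1 : ℕ) : ZMod n) := by
  have hω := wired_sub (k := k) hp hS hA
  set z : ZMod n := (i : ZMod n) with hz
  have hz1 : ((i + 1 : ℕ) : ZMod n) = z + 1 := by rw [hz]; push_cast; ring
  have h1 : ahead (p z, ro p z - 1) ∈ wiredOpen p k A := by
    refine Or.inr ⟨i, hk, hi, ?_⟩
    rw [ahead]
    simp only [fin4_1]
    rw [← ro_spec hp z]
  have h3 : next (wiredOpen p k A) (p z, ro p z - 1) = (p (z + 1), ri p (z + 1)) := by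
    rw [next_open h1]
    simp only [fin4_1]
    rw [← ro_spec hp z]
    have h2 : ro p z - 1 - 1 = ri p (z + 1) := by
      rw [ri, add_sub_cancel_right]
      generalize ro p z = r
      revert r
      decide
    rw [h2]
  refine ⟨((ro p (z + 1) - ri p (z + 1)).val - 1) + 1, ?_, ?_⟩
  · rw [hz1, Function.iterate_add_apply, Function.iterate_one, h3]
    exact around' hp hS hω _
  · intro m hm1 hm2
    obtain ⟨m', rfl⟩ : ∃ m', m = m' + 1 := ⟨m - 1, by omega⟩
    rw [hz1, Function.iterate_add_apply, Function.iterate_one, h3]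
    exact around_fst hp hS hω _ (by omega)

theorem wired_to_cs (hp : IsPolygon p) (hS : Encloses p S) (hA : A ⊆ edges S) (d : ℕ) :
    ∀ i : ℕ, k ≤ i → i + d + 1 = n →
    ∃ a, (next (wiredOpen p k A))^[a] (p (i : ZMod n), ro p (i : ZMod n) - 1) = cs p ∧
      ∀ m ≤ a, ∃ i' : ℕ, i ≤ i' ∧ i' < n ∧
        ((next (wiredOpen p k A))^[m] (p (i : ZMod n), ro p (i : ZMod n) - 1)).1 =
          p (i' : ZMod n) := by
  induction d with
  | zero =>
    intro i hki hin
    have h1 : (i : ZMod n) = -1 := by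
      have : i = n - 1 := by omega
      rw [this, Nat.cast_sub (by omega)]
      simp
    refine ⟨0, ?_, fun m hm => ⟨i, le_rfl, by omega, ?_⟩⟩
    · rw [h1]
      rfl
    · have : m = 0 := by omega
      rw [this]
      rfl
  | succ d ih =>
    intro i hki hin
    obtain ⟨a, ha, ha'⟩ := wired_one hp hS hA hki (show i + 1 < n by omega)
    obtain ⟨b, hb, hb'⟩ := ih (i + 1) (by omega) (by omega)
    refine ⟨b + a, ?_, fun m hm => ?_⟩
    · rw [Function.iterate_add_apply, ha, hb]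
    · rcases Nat.eq_zero_or_pos m with rfl | hm0
      · exact ⟨i, le_rfl, by omega, rfl⟩
      · rcases le_total m a with hma | hma
        · exact ⟨i + 1, by omega, by omega, ha' m hm0 hma⟩
        · obtain ⟨m', rfl⟩ : ∃ m', m = m' + a := ⟨m - a, by omega⟩
          rw [Function.iterate_add_apply, ha]
          obtain ⟨i', h1, h2, h3⟩ := hb' m' (by omega)
          exact ⟨i', by omega, h2, h3⟩

/-- The outer medial edges of the wired arc are not on the path. -/
theorem wired_not_run (hp : IsPolygon p) (hS : Encloses p S) (hk : k + 1 < n)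
    (hA : A ⊆ edges S) {i j : ℕ} (hi : k < i) (hin : i < n) (h1 : 1 ≤ j) (h2 : j ≤ len p k A) :
    run p k A j ≠ (p (i : ZMod n), ro p (i : ZMod n) - 1) := by
  intro h
  obtain ⟨a, ha, ha'⟩ := wired_to_cs hp hS hA (n - 1 - i) i hi.le (by omega)
  rw [← h] at ha ha'
  rw [← run_add] at ha
  rcases le_or_gt (len p k A) (j + a) with h3 | h3
  · obtain ⟨i', g1, g2, g3⟩ := ha' (len p k A - j) (by omega)
    rw [← run_add, Nat.add_sub_cancel' h2, run_len hp hS (by omega) hA] at g3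
    have g4 : p (k : ZMod n) = p (i' : ZMod n) := g3
    have := cast_inj (by omega) (by omega) g2 (hp.2.1 g4)
    omega
  · have := run_inj' hp hS hk hA (j + a) h3.le 0 (Nat.zero_le _) (by rw [ha, run_zero])
    omega

/-! ### the exits -/

section

variable (hp : IsPolygon p) (hS : Encloses p S) (hk : k + 1 < n) (hA : A ⊆ edges S)
  {δ : ℝ} (hδ : 0 < δ) {τ : ℕ} (hτ : τ ≤ len p k A)
  {N : Finset (ℤ × ℤ)} {a : Ed} {J : Set ℝ} {v u : ℤ × ℤ}
include hp hS hk hA hδ hτ

theorem exit_left (hv : v ∈ N) (ho : cfg (wiredOpen p k A) v = true)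
    (hD : v ∉ Dq S p k \ rdq p k A τ) (hu : Even (u.1 + u.2)) (hc : Cor v u) :
    ∃ y, JoinedIn (TT (cfg (wiredOpen p k A)) (FF p k A τ) N true a J) (P2 u) y ∧
      ((∃ j ≤ τ, y = Sd (ee p k A j) (1 / 2)) ∨ Ti δ y ∉ Om δ S) := by
  have hu' := Int.even_iff.1 hu
  set ω := cfg (wiredOpen p k A) with hω
  have hconv : Convex ℝ (Icc (0 : ℝ) (1 / 2)) := convex_Icc _ _
  by_cases hr : v ∈ rdq p k A τ
  · unfold QN.rdq at hr
    rw [Finset.mem_image] at hr
    obtain ⟨j, hj, hjv⟩ := hr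
    rw [Finset.mem_range] at hj
    have hjv' : hdv (ee p k A j) = v := by rw [hdv_ee, hjv]
    have fin : ∀ i ≤ τ, u = ls (ee p k A i) →
        ∃ y, JoinedIn (TT ω (FF p k A τ) N true a J) (P2 u) y ∧
          ((∃ j ≤ τ, y = Sd (ee p k A j) (1 / 2)) ∨ Ti δ y ∉ Om δ S) := by
      intro i hi hui
      refine ⟨Sd (ee p k A i) (1 / 2), ?_, Or.inl ⟨i, hi, rfl⟩⟩
      rw [hui, ← Sd_zero]
      exact side_TT hv (Or.inl (hui ▸ hc)) hconv (fun θ h => ⟨h.1, by linarith [h.2]⟩)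
        (Or.inl (not_FF hp hS hk hA hi hτ)) ⟨le_rfl, by norm_num⟩ ⟨by norm_num, le_rfl⟩
    rcases H192.ls_nx ω (ee p k A j) with ⟨-, h2, -, h4⟩ | ⟨h1, -, -, -⟩
    · rw [hjv'] at h4
      rcases opp_corner h2.1 h2.2.1 h4 hc (by rw [hu', even_ls]) with h | h
      · exact fin j hj.le h
      · rw [← ee_succ] at h
        exact fin (j + 1) hj h
    · rw [hjv', ho] at h1
      exact absurd h1 (by decide)
  · have hDq : v ∉ Dq S p k := fun h => hD (Finset.mem_sdiff.2 ⟨h, hr⟩)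
    have h1 : ed v ∈ wiredOpen p k A := H192.cfg_true.1 ho
    have h2 : ed v ∈ wE p k := by
      rcases mem_wiredOpen.1 h1 with h | h
      · by_contra hn
        exact hDq (mem_Dq'.2 ⟨hA h, hn⟩)
      · exact h
    obtain ⟨i, hki, hin, hev⟩ := mem_wE.1 h2
    have hev' : v = H192.sq s(p (i : ZMod n), p (i : ZMod n) + dir (ro p (i : ZMod n))) := by
      rw [← ro_spec hp, ← hev, H192.sq_ed]
    have hcr := cor_ro (p (i : ZMod n)) (ro p (i : ZMod n))
    rw [← hev'] at hcr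
    have hcc := even_corner (hev' ▸ hc) hu'
    have hi1 : ((i + 1 : ℕ) : ZMod n) = (i : ZMod n) + 1 := by push_cast; ring
    rw [← ro_spec hp, ← hi1] at hcr hcc
    set b : ZMod n := ((i + 1 : ℕ) : ZMod n) with hb
    have par : ∀ s : ℤ × ℤ, ((H192.ro s).1 + (H192.ro s).2) % 2 = 0 := fun s =>
      Int.even_iff.1 (H192.even_ro s)
    have s1 : JoinedIn (TT ω (FF p k A τ) N true a J) (P2 u) (P2 (H192.ro (p b))) := by
      refine JoinedIn.of_segment_subset fun X hX => ?_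
      have hX' : X ∈ odg true v := (convex_odg true v).segment_subset
        (corner_odg hc (by simpa using hu')) (corner_odg hcr.2 (by simpa using par _)) hX
      exact ⟨⟨v, hv, odg_Bx _ _ hX'⟩, Or.inl ⟨v, ho, hX'⟩⟩
    have hls : ls (H192.me (p b, ro p b - 1)) = H192.ro (p b) := H192.ls_me _
    have hFF : H192.me (p b, ro p b - 1) ∉ FF p k A τ := by
      rintro ⟨j, j1, j2, j3⟩
      exact wired_not_run hp hS hk hA (i := i + 1) (by omega) hin (by omega) j2
        (H192.me_inj j3).symm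
    have s2 : JoinedIn (TT ω (FF p k A τ) N true a J) (Sd (H192.me (p b, ro p b - 1)) 0)
        (Sd (H192.me (p b, ro p b - 1)) 1) :=
      side_TT hv (Or.inl (hls ▸ hcr.2)) (convex_Icc (0 : ℝ) 1) (fun θ h => h) (Or.inl hFF)
        ⟨le_rfl, by norm_num⟩ ⟨by norm_num, le_rfl⟩
    rw [Sd_zero, hls] at s2
    refine ⟨_, s1.trans s2, Or.inr ?_⟩
    rw [Sd_one, H192.rs_me]
    exact centre_out hδ (enc_out hp hS (i := b)).2

theorem exit_right (hv : v ∈ N) (ho : cfg (wiredOpen p k A) v = false)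
    (hD : v ∉ Dq S p k \ rdq p k A τ) (hu : Odd (u.1 + u.2)) (hc : Cor v u)
    (hu0 : P2 u ∈ TT (cfg (wiredOpen p k A)) (FF p k A τ) N false a J) :
    ∃ y, JoinedIn (TT (cfg (wiredOpen p k A)) (FF p k A τ) N false a J) (P2 u) y ∧
      ((∃ j ≤ τ, y = Sd (ee p k A j) (1 / 2)) ∨ Ti δ y ∉ Om δ S) := by
  have hu' := Int.odd_iff.1 hu
  set ω := cfg (wiredOpen p k A) with hω
  have hconv : Convex ℝ (Icc (1 / 2 : ℝ) 1) := convex_Icc _ _
  by_cases hr : v ∈ rdq p k A τ
  · unfold QN.rdq at hr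
    rw [Finset.mem_image] at hr
    obtain ⟨j, hj, hjv⟩ := hr
    rw [Finset.mem_range] at hj
    have hjv' : hdv (ee p k A j) = v := by rw [hdv_ee, hjv]
    have fin : ∀ i ≤ τ, u = rs (ee p k A i) →
        ∃ y, JoinedIn (TT ω (FF p k A τ) N false a J) (P2 u) y ∧
          ((∃ j ≤ τ, y = Sd (ee p k A j) (1 / 2)) ∨ Ti δ y ∉ Om δ S) := by
      intro i hi hui
      refine ⟨Sd (ee p k A i) (1 / 2), ?_, Or.inl ⟨i, hi, rfl⟩⟩
      rw [hui, ← Sd_one]
      exact side_TT hv (Or.inr (hui ▸ hc)) hconv (fun θ h => ⟨by linarith [h.1], h.2⟩)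
        (Or.inl (not_FF hp hS hk hA hi hτ)) ⟨by norm_num, le_rfl⟩ ⟨le_rfl, by norm_num⟩
    rcases H192.ls_nx ω (ee p k A j) with ⟨h1, -, -, -⟩ | ⟨-, h2, -, h4⟩
    · rw [hjv', ho] at h1
      exact absurd h1 (by decide)
    · rw [hjv'] at h4
      rcases opp_corner h2.1 h2.2.1 h4 hc (by rw [hu', odd_rs]) with h | h
      · exact fin j hj.le h
      · rw [← ee_succ] at h
        exact fin (j + 1) hj h
  · have hDq : v ∉ Dq S p k := fun h => hD (Finset.mem_sdiff.2 ⟨h, hr⟩)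
    have h1 : ed v ∉ wiredOpen p k A := by
      intro h
      have := H192.cfg_true.2 h
      rw [← hω, ho] at this
      exact absurd this (by decide)
    have h2 : ed v ∉ edges S := by
      intro h
      refine hDq (mem_Dq'.2 ⟨h, fun h3 => h1 (mem_wiredOpen.2 (Or.inr h3))⟩)
    refine ⟨P2 u, JoinedIn.refl hu0, Or.inr ?_⟩
    have h3 : H192.rf' u ∉ S := fun h => h2 (face_edge' hc hu' h)
    have h4 : H192.rf (H192.rf' u) = u := H192.rf_rf' (by rw [Int.even_iff]; omega)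
    rw [← h4]
    exact centre_out hδ h3

end

end Vale.Agent.P167.QC.DT
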