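import Vale.Agent.P167.QC.DT.Ext
import Vale.Agent.P167.QC.DT.Core
import Vale.Agent.P167.E2.Om

/-!
# P167, general `q`, block DT (iii): the corner curve in the coordinates of the squares
-/

set_option autoImplicit false

open Set Relation

namespace Vale.Agent.P167.QC.DT

open Vale.Agent.P167
open Vale.Agent.P167.E6 Vale.Agent.P167.E2
open Vale.Agent.P167.H192 (cfg)

/-- The point of the plane in the coordinates of the squares. -/
noncomputable def Th (δ : ℝ) (z : ℂ) : ℂ := (1 + Complex.I) * z / δ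

theorem one_I : (1 + Complex.I : ℂ) ≠ 0 := by
  intro h
  have := congrArg Complex.re h
  simp at this

theorem Th_Ti {δ : ℝ} (hδ : 0 < δ) (X : ℂ) : Th δ (Ti δ X) = X := by
  have h0 : (δ : ℂ) ≠ 0 := by exact_mod_cast hδ.ne'
  have h1 := one_I
  unfold Th Ti
  field_simp

theorem Ti_inj {δ : ℝ} (hδ : 0 < δ) {X Y : ℂ} (h : Ti δ X = Ti δ Y) : X = Y := by
  rw [← Th_Ti hδ X, h, Th_Ti hδ]

theorem continuous_Ti (δ : ℝ) : Continuous (Ti δ) := by
  unfold Ti
  fun_prop

theorem Ti_conv (δ : ℝ) (X Y : ℂ) (a b : ℝ) :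
    Ti δ (a * X + b * Y) = a * Ti δ X + b * Ti δ Y := by
  unfold Ti
  ring

theorem Pc_eq (ω : Cfg) (e : Ed) (t : ℝ) :
    Pc ω e t = (1 - t : ℝ) * Sd e (1 / 2) + (t : ℝ) * Sd (nx ω e) (1 / 2) := by
  apply Complex.ext
  · rw [Complex.add_re, Complex.re_ofReal_mul, Complex.re_ofReal_mul]
    rfl
  · rw [Complex.add_im, Complex.im_ofReal_mul, Complex.im_ofReal_mul]
    rfl

theorem cpt_Sd (δ θ : ℝ) (c : Medial) :
    (δ : ℂ) * cpt θ c = Ti δ (Sd (H192.me c) (2 * θ)) := by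
  unfold Ti
  congr 1
  rw [eq_div_iff one_I]
  have h1 := H192.ls_me c
  have h2 := H192.rs_me c
  obtain ⟨v, r⟩ := c
  unfold cpt Sd
  rw [h1, h2]
  rcases H192.fin4_cases r with rfl | rfl | rfl | rfl
  · apply Complex.ext <;> simp [H192.ro, H192.rf, face, pt, sq0] <;> ring
  · apply Complex.ext <;> simp [H192.ro, H192.rf, face, pt, sq1] <;> ring
  · apply Complex.ext <;> simp [H192.ro, H192.rf, face, pt, sq2] <;> ring
  · apply Complex.ext <;> simp [H192.ro, H192.rf, face, pt, sq3] <;> ring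

/-- The direction of the path. -/
theorem turn (ω : Cfg) (e : Ed) :
    (-((ls (nx ω e)).1 + (rs (nx ω e)).1 - (ls e).1 - (rs e).1) * ((rs e).2 - (ls e).2) +
      ((ls (nx ω e)).2 + (rs (nx ω e)).2 - (ls e).2 - (rs e).2) * ((rs e).1 - (ls e).1) = 1) ∧
    (-((ls (nx ω e)).1 + (rs (nx ω e)).1 - (ls e).1 - (rs e).1) *
        ((rs (nx ω e)).2 - (ls (nx ω e)).2) +
      ((ls (nx ω e)).2 + (rs (nx ω e)).2 - (ls e).2 - (rs e).2) *
        ((rs (nx ω e)).1 - (ls (nx ω e)).1) = 1) := by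
  obtain ⟨c, rfl⟩ := H192.meE.surjective e
  obtain ⟨v, r⟩ := c
  show (-((ls (nx ω (H192.me (v, r)))).1 + (rs (nx ω (H192.me (v, r)))).1 -
        (ls (H192.me (v, r))).1 - (rs (H192.me (v, r))).1) *
          ((rs (H192.me (v, r))).2 - (ls (H192.me (v, r))).2) +
      ((ls (nx ω (H192.me (v, r)))).2 + (rs (nx ω (H192.me (v, r)))).2 -
        (ls (H192.me (v, r))).2 - (rs (H192.me (v, r))).2) *
          ((rs (H192.me (v, r))).1 - (ls (H192.me (v, r))).1) = 1) ∧
    (-((ls (nx ω (H192.me (v, r)))).1 + (rs (nx ω (H192.me (v, r)))).1 -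
        (ls (H192.me (v, r))).1 - (rs (H192.me (v, r))).1) *
        ((rs (nx ω (H192.me (v, r)))).2 - (ls (nx ω (H192.me (v, r)))).2) +
      ((ls (nx ω (H192.me (v, r)))).2 + (rs (nx ω (H192.me (v, r)))).2 -
        (ls (H192.me (v, r))).2 - (rs (H192.me (v, r))).2) *
        ((rs (nx ω (H192.me (v, r)))).1 - (ls (nx ω (H192.me (v, r)))).1) = 1)
  cases h : ω (hdv (H192.me (v, r))) with
  | true =>
    rw [H192.me_open v r ω h, H192.ls_me, H192.rs_me, H192.ls_me, H192.rs_me]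
    clear h
    revert r
    refine forall4 ?_ ?_ ?_ ?_ <;>
      simp [H192.ro, H192.rf, face, dir] <;> first
        | omega
        | ring1
        | (constructor <;> omega)
        | (constructor <;> ring1)
  | false =>
    rw [H192.me_closed v r ω h, H192.ls_me, H192.rs_me, H192.ls_me, H192.rs_me]
    clear h
    revert r
    refine forall4 ?_ ?_ ?_ ?_ <;>
      simp [H192.ro, H192.rf, face] <;> first
        | omega
        | ring1
        | (constructor <;> omega)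
        | (constructor <;> ring1)

theorem sd_Ti {δ : ℝ} (hδ : 0 < δ) (M Q P X : ℂ) :
    sd (Ti δ M) (Ti δ Q - Ti δ P) (Ti δ X) =
      (-(X - M).re * (Q - P).im + (X - M).im * (Q - P).re) / Complex.normSq (Q - P) := by
  have h0 : (δ : ℂ) ≠ 0 := by exact_mod_cast hδ.ne'
  have h1 := one_I
  have h2 : (Ti δ X - Ti δ M) / (Complex.I * (Ti δ Q - Ti δ P)) =
      (X - M) / (Complex.I * (Q - P)) := by
    have e1 : Ti δ X - Ti δ M = (δ / (1 + Complex.I)) * (X - M) := by unfold Ti; ring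
    have e2 : Complex.I * (Ti δ Q - Ti δ P) = (δ / (1 + Complex.I)) * (Complex.I * (Q - P)) := by
      unfold Ti; ring
    rw [e1, e2, mul_div_mul_left _ _ (div_ne_zero h0 h1)]
  unfold sd
  rw [h2, Complex.div_re, Complex.normSq_mul, Complex.normSq_I, one_mul]
  simp only [Complex.mul_re, Complex.mul_im, Complex.I_re, Complex.I_im]
  ring

section

variable {n : ℕ} {p : ZMod n → ℤ × ℤ} {S : Finset (ℤ × ℤ)} {k : ℕ} {A : Finset (Sym2 (ℤ × ℤ))}
  {δ : ℝ}

theorem pl_mid {j : ℕ} (hj : j < len p k A) {t : ℝ} (h0 : (j : ℝ) + 1 ≤ t) (h1 : t ≤ j + 2) :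
    pl p k δ A t = Ti δ (Pc (cfg (wiredOpen p k A)) (ee p k A j) (t - j - 1)) := by
  rw [Pc_eq, ← ee_succ, Ti_conv]
  unfold ee
  have e1 : (1 / 2 : ℝ) = 2 * (1 / 4) := by norm_num
  rw [e1, ← cpt_Sd, ← cpt_Sd]
  unfold pl
  rw [lin_eq _ (j + 1) (Or.inl (by push_cast; linarith)) (by push_cast; linarith),
    xv_mid (by omega), xv_mid (by omega)]
  push_cast
  ring

theorem pl_first {t : ℝ} (h1 : t ≤ 1) :
    pl p k δ A t = Ti δ (Sd (ee p k A 0) (3 / 4 - t / 4)) := by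
  unfold pl ee
  rw [lin_first h1, cpt_Sd, run_zero]
  congr 2
  ring

theorem pl_last (hp : IsPolygon p) (hS : Encloses p S) (hk : k < n) (hA : A ⊆ edges S) {t : ℝ}
    (h0 : (len p k A : ℝ) + 1 ≤ t) (h1 : t ≤ len p k A + 2) :
    pl p k δ A t = Ti δ (Sd (ee p k A (len p k A)) (1 / 2 + (t - (len p k A + 1)) / 4)) := by
  unfold pl ee
  rw [lin_last hp hS hk hA h0 h1, cpt_Sd, run_len hp hS hk hA]
  congr 2
  ring

theorem pl_half {j : ℕ} (hj : j ≤ len p k A) :
    pl p k δ A (j + 1) = Ti δ (Sd (ee p k A j) (1 / 2)) := by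
  have e0 : ((j : ℝ) + 1) = ((j + 1 : ℕ) : ℝ) := by push_cast; ring
  unfold pl ee
  rw [e0, lin_nat, xv_mid hj, cpt_Sd]
  norm_num

theorem pl_cases (hp : IsPolygon p) (hS : Encloses p S) (hk : k < n) (hA : A ⊆ edges S) {t : ℝ}
    (h1 : t ≤ nu p k A) :
    (t ≤ 1 ∧ pl p k δ A t = Ti δ (Sd (ee p k A 0) (3 / 4 - t / 4))) ∨
    (∃ j : ℕ, j < len p k A ∧ (j : ℝ) + 1 ≤ t ∧ t ≤ j + 2 ∧
      pl p k δ A t = Ti δ (Pc (cfg (wiredOpen p k A)) (ee p k A j) (t - j - 1))) ∨
    ((len p k A : ℝ) + 1 ≤ t ∧ t ≤ len p k A + 2 ∧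
      pl p k δ A t = Ti δ (Sd (ee p k A (len p k A)) (1 / 2 + (t - (len p k A + 1)) / 4))) := by
  have hnu : (nu p k A : ℝ) = len p k A + 2 := by unfold nu; push_cast; ring
  rw [hnu] at h1
  rcases le_or_gt t 1 with h | h
  · exact Or.inl ⟨h, pl_first h⟩
  · rcases le_or_gt ((len p k A : ℝ) + 1) t with h2 | h2
    · exact Or.inr (Or.inr ⟨h2, h1, pl_last hp hS hk hA h2 h1⟩)
    · right
      left
      have h3 : (0 : ℝ) ≤ t - 1 := by linarith
      have h4 := Nat.floor_le h3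
      have h5 := Nat.lt_floor_add_one (t - 1)
      set j := ⌊t - 1⌋₊ with hj
      have h6 : j < len p k A := by
        have : (j : ℝ) < len p k A := by linarith
        exact_mod_cast this
      exact ⟨j, h6, by linarith, by linarith, pl_mid h6 (by linarith) (by linarith)⟩

/-- The corner curve crosses the side `ee a` only at the time `a + 1`. -/
theorem pl_side (hp : IsPolygon p) (hS : Encloses p S) (hk : k + 1 < n) (hA : A ⊆ edges S)
    (hδ : 0 < δ) {t : ℝ} (h0 : 0 ≤ t) (h1 : t ≤ nu p k A) {a : ℕ} (ha : 0 < a)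
    (ha' : a < len p k A) {θ : ℝ} (g0 : 0 ≤ θ) (g1 : θ ≤ 1)
    (h : pl p k δ A t = Ti δ (Sd (ee p k A a) θ)) : t = a + 1 := by
  have hnu : (nu p k A : ℝ) = len p k A + 2 := by unfold nu; push_cast; ring
  rcases pl_cases (δ := δ) hp hS (by omega) hA h1 with ⟨h2, h3⟩ | ⟨j, hj, h2, h3, h4⟩ |
      ⟨h2, h3, h4⟩
  · rw [h3] at h
    have := ee_inj hp hS hk hA (Nat.zero_le _) ha'.le
      (side_side (by linarith) (by linarith) g0 g1 (Ti_inj hδ h))
    omega
  · rw [h4] at h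
    rcases (piece_side _ _ (by linarith) (by linarith) g0 g1 (Ti_inj hδ h)).1 with
      ⟨h5, h6⟩ | ⟨h5, h6⟩
    · have := ee_inj hp hS hk hA ha'.le hj.le h6
      subst this
      linarith
    · rw [← ee_succ] at h6
      have := ee_inj hp hS hk hA ha'.le hj h6
      subst this
      push_cast
      linarith
  · rw [h4] at h
    have := ee_inj hp hS hk hA le_rfl ha'.le
      (side_side (by linarith) (by linarith) g0 g1 (Ti_inj hδ h))
    omega

/-- The corner curve after the time `τ + 1` does not meet the transversal sets. -/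
theorem pl_TT (hp : IsPolygon p) (hS : Encloses p S) (hk : k + 1 < n) (hA : A ⊆ edges S)
    (hδ : 0 < δ) {τ a : ℕ} (ha : τ < a) (ha' : a < len p k A) {t : ℝ} (h0 : (τ : ℝ) + 1 < t)
    (h1 : t < nu p k A) {N : Finset (ℤ × ℤ)} {x : Bool} {J : Set ℝ}
    (hJ : ∀ θ ∈ J, 0 ≤ θ ∧ θ ≤ 1 ∧ θ ≠ 1 / 2) :
    pl p k δ A t ∉ Ti δ '' TT (cfg (wiredOpen p k A)) (FF p k A τ) N x (ee p k A a) J := by
  have hnu : (nu p k A : ℝ) = len p k A + 2 := by unfold nu; push_cast; ring
  rintro ⟨X, hX, hXt⟩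
  rcases pl_cases (δ := δ) hp hS (by omega) hA h1.le with ⟨h2, h3⟩ | ⟨j, hj, h2, h3, h4⟩ |
      ⟨h2, h3, h4⟩
  · have : (0 : ℝ) ≤ τ := Nat.cast_nonneg _
    linarith
  · rw [h4] at hXt
    have := Ti_inj hδ hXt
    subst this
    have hτj : τ ≤ j := by
      have : (τ : ℝ) < ((j + 1 : ℕ) : ℝ) := by push_cast; linarith
      have : τ < j + 1 := by exact_mod_cast this
      omega
    refine piece_TT hJ (by linarith) (by linarith) (fun h5 => ?_) (fun h5 => ?_) hX
    · refine ⟨j, ?_, hj.le, rfl⟩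
      have : (τ : ℝ) < j := by linarith
      exact_mod_cast this
    · rw [← ee_succ]
      exact ⟨j + 1, by omega, hj, rfl⟩
  · rw [h4] at hXt
    have := Ti_inj hδ hXt
    subst this
    rw [hnu] at h1
    have hF : ee p k A (len p k A) ∈ FF p k A τ := ⟨len p k A, by omega, le_rfl, rfl⟩
    refine last_TT (fun θ h => ⟨(hJ θ h).1, (hJ θ h).2.1⟩) (by linarith) (by linarith)
      hF (fun h5 => ?_) hX
    have := ee_inj hp hS hk hA le_rfl ha'.le h5
    omega

end

end Vale.Agent.P167.QC.DT
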