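import Vale.Agent.P167.QC.DT.Link
import Vale.Agent.P167.H327.Rado6

/-!
# P167, general `q`, block DT (iii): a path which crosses an annulus without a fresh arm is cut off
-/

set_option autoImplicit false

open Set Relation

namespace Vale.Agent.P167.QC.DT

open Vale.Agent.P167
open Vale.Agent.P167.E6 Vale.Agent.P167.E2
open Vale.Agent.P167.FK (Bq)
open Vale.Agent.P167.QN (Ann mem_Ann FreshP FreshD rdq)
open Vale.Agent.P167.H718 (Dq)
open Vale.Agent.P167.H192 (cfg)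

section

variable {n : ℕ} {p : ZMod n → ℤ × ℤ} {S : Finset (ℤ × ℤ)} {k : ℕ} {A : Finset (Sym2 (ℤ × ℤ))}
  {δ : ℝ}

/-- The frontier of the domain together with an initial piece of the curve is path connected. -/
theorem joined_K (hp : IsPolygon p) (hS : Encloses p S) (hδ : 0 < δ) {s : ℝ} (hs : 0 ≤ s) :
    ∀ x ∈ frontier (Om δ S) ∪ pl p k δ A '' Icc 0 s, ∀ y ∈ frontier (Om δ S) ∪
      pl p k δ A '' Icc 0 s, JoinedIn (frontier (Om δ S) ∪ pl p k δ A '' Icc 0 s) x y := by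
  have h1 : IsPathConnected (frontier (Om δ S)) := by
    rw [H327.frontier_Om hδ hp hS]
    exact isPathConnected_range (H327.jcurve_QF hδ hp hS).cont
  have h2 : IsPathConnected (pl p k δ A '' Icc 0 s) :=
    ((convex_Icc 0 s).isPathConnected ⟨0, le_rfl, hs⟩).image (continuous_pl δ)
  have h3 : (frontier (Om δ S) ∩ pl p k δ A '' Icc 0 s).Nonempty :=
    ⟨aM p δ, H327.aM_mem hδ hp hS, 0, ⟨le_rfl, hs⟩, pl_zero δ⟩
  exact fun x hx y hy => (h1.union h2 h3).joinedIn x hx y hy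

theorem seg_Ti {e : Ed} {z : ℂ}
    (hz : z ∈ segment ℝ (Ti δ (Sd e (1 / 4))) (Ti δ (Sd e (3 / 4)))) :
    ∃ θ : ℝ, 1 / 4 ≤ θ ∧ θ ≤ 3 / 4 ∧ z = Ti δ (Sd e θ) := by
  obtain ⟨α, β, hα, hβ, hαβ, rfl⟩ := hz
  refine ⟨α * (1 / 4) + β * (3 / 4), by nlinarith, by nlinarith, ?_⟩
  rw [← Sd_conv e hαβ, Complex.real_smul, Complex.real_smul, Complex.real_smul,
    Complex.real_smul, Ti_conv]

/-- **Separation.** -/
theorem dt_sep (hδ : 0 < δ) (hp : IsPolygon p) (hS : Encloses p S) (hk : k + 1 < n)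
    (hA : A ⊆ edges S) {x : ℤ × ℤ} {r R : ℤ} (hrR : r < R) {τ w t : ℕ} (hτw : τ ≤ w) (hτt : τ ≤ t)
    (hw : w < len p k A) (ht : t < len p k A)
    (hin : H192.sq (ahead (run p k A w)) ∈ Bq x r) (hout : H192.sq (ahead (run p k A t)) ∉ Bq x R)
    (hP : ¬ FreshP x r R (Dq S p k \ rdq p k A τ) (cfg (wiredOpen p k A)))
    (hD : ¬ FreshD x r R (Dq S p k \ rdq p k A τ) (cfg (wiredOpen p k A))) :
    ∃ (Z : Set ℂ) (u : ℝ), u ∈ Ioo ((τ : ℝ) + 1) (nu p k A) ∧ ((min w t : ℕ) : ℝ) + 2 ≤ u ∧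
      u ≤ ((max w t : ℕ) : ℝ) ∧ pl p k δ A u ∈ Z ∧ IsPreconnected Z ∧
      Z ⊆ Om δ S \ pl p k δ A '' Icc 0 ((τ : ℝ) + 1) ∧
      (∀ z ∈ Z, |(Th δ z).re - x.1| ≤ R + 1 ∧ |(Th δ z).im - x.2| ≤ R + 1 ∧
        ((r : ℝ) - 1 ≤ |(Th δ z).re - x.1| ∨ (r : ℝ) - 1 ≤ |(Th δ z).im - x.2|)) ∧
      ∀ u₀ ∈ Ioo ((τ : ℝ) + 1) u, ∀ u₁ ∈ Ioo u (nu p k A),
        ¬ JoinedIn (Om δ S \ (pl p k δ A '' Icc 0 ((τ : ℝ) + 1) ∪ Z)) (pl p k δ A u₀)
          (pl p k δ A u₁) := by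
  have hk' : k < n := by omega
  have hnu : (nu p k A : ℝ) = len p k A + 2 := by unfold nu; push_cast; ring
  set ω := cfg (wiredOpen p k A) with hω
  rw [← hdv_ee] at hin hout
  obtain ⟨a, ha1, ha2, haN, ⟨v, hv, hvo, hvD, u', hu', hcu', hpu'⟩,
    v2, hv2, hv2o, hv2D, u2, hu2, hcu2, hpu2⟩ :=
    window (e := ee p k A) (ω := ω) ee_succ hrR hin hout hP hD
  have haτ : τ < a := by omega
  have halen : a < len p k A := by omega
  have hτlen : τ ≤ len p k A := by omega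
  set e := ee p k A a with he
  set u : ℝ := (a : ℝ) + 1 with hu
  have hc := cor_ls_hdv e
  have hτa : (τ : ℝ) < a := by exact_mod_cast haτ
  have halen' : (a : ℝ) < len p k A := by exact_mod_cast halen
  have ha0 : (0 : ℝ) ≤ τ := Nat.cast_nonneg _
  have huI : u ∈ Ioo ((τ : ℝ) + 1) (nu p k A : ℝ) := ⟨by rw [hu]; linarith, by rw [hnu, hu]; linarith⟩
  have hJL : ∀ θ ∈ Icc (0 : ℝ) (1 / 4), 0 ≤ θ ∧ θ ≤ 1 ∧ θ ≠ 1 / 2 := fun θ h =>
    ⟨h.1, by linarith [h.2], fun h' => by linarith [h.2]⟩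
  have hJR : ∀ θ ∈ Icc (3 / 4 : ℝ) 1, 0 ≤ θ ∧ θ ≤ 1 ∧ θ ≠ 1 / 2 := fun θ h =>
    ⟨by linarith [h.1], h.2, fun h' => by linarith [h.1]⟩
  set TL := TT ω (FF p k A τ) (Ann x r R) true e (Icc 0 (1 / 4)) with hTL
  set TR := TT ω (FF p k A τ) (Ann x r R) false e (Icc (3 / 4) 1) with hTR
  -- the left crossing
  have L1 : JoinedIn TL (Sd e (1 / 4)) (Sd e 0) :=
    side_TT haN (Or.inl hc.1) (convex_Icc (0 : ℝ) (1 / 4)) (fun θ h => ⟨h.1, by linarith [h.2]⟩)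
      (Or.inr ⟨rfl, subset_rfl⟩) ⟨by norm_num, le_rfl⟩ ⟨le_rfl, by norm_num⟩
  rw [Sd_zero] at L1
  have L2 := (chain_TT (x := true) L1.target_mem (by simpa using even_ls e) hpu').1
  obtain ⟨yL, L3, hyL⟩ := exit_left hp hS hk hA hδ hτlen (a := e) (J := Icc 0 (1 / 4)) hv hvo hvD
    hu' hcu'
  have L4 : JoinedIn (Ti δ '' TL) (Ti δ (Sd e (1 / 4))) (Ti δ yL) :=
    ((L1.trans L2).trans L3).map (continuous_Ti δ)
  -- the right crossing
  have R1 : JoinedIn TR (Sd e (3 / 4)) (Sd e 1) :=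
    side_TT haN (Or.inl hc.1) (convex_Icc (3 / 4 : ℝ) 1) (fun θ h => ⟨by linarith [h.1], h.2⟩)
      (Or.inr ⟨rfl, subset_rfl⟩) ⟨le_rfl, by norm_num⟩ ⟨by norm_num, le_rfl⟩
  rw [Sd_one] at R1
  have R2 := (chain_TT (x := false) R1.target_mem (by simpa using odd_rs e) hpu2).1
  obtain ⟨yR, R3, hyR⟩ := exit_right hp hS hk hA hδ hτlen (a := e) (J := Icc (3 / 4) 1) hv2 hv2o
    hv2D hu2 hcu2 R2.target_mem
  have R4 : JoinedIn (Ti δ '' TR) (Ti δ (Sd e (3 / 4))) (Ti δ yR) :=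
    ((R1.trans R2).trans R3).map (continuous_Ti δ)
  have hex : ∀ y, ((∃ j ≤ τ, y = Sd (ee p k A j) (1 / 2)) ∨ Ti δ y ∉ Om δ S) →
      Ti δ y ∈ pl p k δ A '' Icc 0 ((τ : ℝ) + 1) ∨ Ti δ y ∉ Om δ S := by
    rintro y (⟨j, hj, rfl⟩ | h)
    · left
      have hj' : (j : ℝ) ≤ τ := by exact_mod_cast hj
      exact ⟨(j : ℝ) + 1, ⟨by positivity, by linarith⟩, pl_half (hj.trans hτlen)⟩
    · exact Or.inr h
  have hmid : pl p k δ A u = Ti δ (Sd e (1 / 2)) := pl_half halen.le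
  have hpq : Ti δ (Sd e (1 / 4)) ≠ Ti δ (Sd e (3 / 4)) := by
    intro h
    have := Sd_inj (Ti_inj hδ h)
    norm_num at this
  have hseg0 : ∀ z ∈ segment ℝ (Ti δ (Sd e (1 / 4))) (Ti δ (Sd e (3 / 4))),
      z ≠ Ti δ (Sd e (1 / 4)) → z ≠ Ti δ (Sd e (3 / 4)) →
      z ∈ Om δ S ∧ z ∉ pl p k δ A '' Icc 0 ((τ : ℝ) + 1) := by
    intro z hz h1 h2
    obtain ⟨θ, g0, g1, rfl⟩ := seg_Ti hz
    have g2 : θ ≠ 3 / 4 := fun h => h2 (by rw [h])
    have g3 : θ < 3 / 4 := lt_of_le_of_ne g1 g2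
    constructor
    · have h3 := cpt_Sd δ (θ / 2) (run p k A a)
      rw [show 2 * (θ / 2) = θ by ring] at h3
      show Ti δ (Sd (H192.me (run p k A a)) θ) ∈ Om δ S
      rw [← h3]
      exact cpt_mem_Om hδ (run_mem hp hS hA a) (by linarith) (by linarith)
    · rintro ⟨s, ⟨s0, s1⟩, hs⟩
      have := pl_side hp hS hk hA hδ s0 (by rw [hnu]; linarith) (by omega) halen
        (by linarith) (by linarith) hs
      linarith
  have hsegγ : ∀ s ∈ Ioo ((τ : ℝ) + 1) (nu p k A : ℝ),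
      pl p k δ A s ∈ segment ℝ (Ti δ (Sd e (1 / 4))) (Ti δ (Sd e (3 / 4))) → s = u := by
    intro s hs hseg
    obtain ⟨θ, g0, g1, g2⟩ := seg_Ti hseg
    exact pl_side hp hS hk hA hδ (by linarith [hs.1]) hs.2.le (by omega) halen
      (by linarith) (by linarith) g2
  have hQP : (Sd e (3 / 4) - Sd e (1 / 4)).re = (((rs e).1 : ℝ) - (ls e).1) / 2 ∧
      (Sd e (3 / 4) - Sd e (1 / 4)).im = (((rs e).2 : ℝ) - (ls e).2) / 2 := by
    simp only [Sd, Complex.sub_re, Complex.sub_im]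
    constructor <;> ring
  have hns : 0 < Complex.normSq (Sd e (3 / 4) - Sd e (1 / 4)) := by
    rw [Complex.normSq_pos, sub_ne_zero]
    intro h
    have := Sd_inj h
    norm_num at this
  have hb : ∀ s ∈ Ioo (u - 1) u, sd (pl p k δ A u)
      (Ti δ (Sd e (3 / 4)) - Ti δ (Sd e (1 / 4))) (pl p k δ A s) < 0 := by
    intro s hs
    obtain ⟨a', rfl⟩ : ∃ a', a = a' + 1 := ⟨a - 1, by omega⟩
    have e1 : ((a' + 1 : ℕ) : ℝ) = (a' : ℝ) + 1 := by push_cast; ring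
    rw [hu, e1] at hs
    rw [hmid, pl_mid (j := a') (by omega) (by linarith [hs.1]) (by linarith [hs.2]), sd_Ti hδ]
    refine div_neg_of_neg_of_pos ?_ hns
    have hT := (turn ω (ee p k A a')).2
    rw [← ee_succ] at hT
    have hT' : -(((ls e).1 : ℝ) + (rs e).1 - (ls (ee p k A a')).1 - (rs (ee p k A a')).1) *
        ((rs e).2 - (ls e).2) + (((ls e).2 : ℝ) + (rs e).2 - (ls (ee p k A a')).2 -
          (rs (ee p k A a')).2) * ((rs e).1 - (ls e).1) = 1 := by exact_mod_cast hT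
    rw [hQP.1, hQP.2]
    rw [Pc_eq, ← ee_succ]
    simp only [Complex.sub_re, Complex.sub_im, Complex.add_re, Complex.add_im,
      Complex.re_ofReal_mul, Complex.im_ofReal_mul, ← he]
    simp only [Sd]
    have hs' : 0 < 1 - (s - a' - 1) := by linarith [hs.2]
    nlinarith
  have hf : ∀ s ∈ Ioo u (u + 1), 0 < sd (pl p k δ A u)
      (Ti δ (Sd e (3 / 4)) - Ti δ (Sd e (1 / 4))) (pl p k δ A s) := by
    intro s hs
    rw [hu] at hs
    rw [hmid, pl_mid (j := a) halen (by linarith [hs.1]) (by linarith [hs.2]), sd_Ti hδ]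
    refine div_pos ?_ hns
    have hT := (turn ω e).1
    have hT' : -(((ls (nx ω e)).1 : ℝ) + (rs (nx ω e)).1 - (ls e).1 - (rs e).1) *
        ((rs e).2 - (ls e).2) + (((ls (nx ω e)).2 : ℝ) + (rs (nx ω e)).2 - (ls e).2 -
          (rs e).2) * ((rs e).1 - (ls e).1) = 1 := by exact_mod_cast hT
    rw [hQP.1, hQP.2]
    rw [Pc_eq]
    simp only [Complex.sub_re, Complex.sub_im, Complex.add_re, Complex.add_im,
      Complex.re_ofReal_mul, Complex.im_ofReal_mul, ← he]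
    simp only [Sd]
    have hs' : 0 < s - a - 1 := by linarith [hs.1]
    nlinarith
  obtain ⟨Z, hZu, hZc, hZD, hZs, hZsep⟩ := sep_core (D := Om δ S)
    (Kc := pl p k δ A '' Icc 0 ((τ : ℝ) + 1)) (TR := Ti δ '' TR) (TL := Ti δ '' TL)
    (γ := pl p k δ A) (s₀ := (τ : ℝ) + 1) (s₁ := nu p k A) (u := u)
    (p := Ti δ (Sd e (1 / 4))) (q := Ti δ (Sd e (3 / 4)))
    (H327.isOpen_Om hδ S) (isCompact_Icc.image (continuous_pl δ)).isClosed
    (joined_K hp hS hδ (by linarith)) (continuous_pl δ).continuousOn huI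
    (fun s hs => ⟨pl_mem_Om hp hS hk' hA hδ (by linarith [hs.1]) hs.2, by
      rintro ⟨s', ⟨h1, h2⟩, h3⟩
      have := pl_injOn hp hS hk hA hδ ⟨h1, by rw [hnu]; linarith⟩ ⟨by linarith [hs.1], hs.2.le⟩ h3
      linarith [hs.1]⟩) hpq
    (by
      rw [hmid]
      have : Sd e (1 / 2) = ((1 / 2 : ℝ) : ℂ) * Sd e (1 / 4) + ((1 / 2 : ℝ) : ℂ) * Sd e (3 / 4) := by
        rw [← Complex.real_smul, ← Complex.real_smul, Sd_conv e (by norm_num)]
        norm_num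
      rw [this, Ti_conv]
      push_cast
      ring)
    hseg0 hsegγ one_pos hb hf R4 (hex _ hyR) L4 (hex _ hyL)
    (fun s hs => pl_TT hp hS hk hA hδ haτ halen hs.1 hs.2 hJR)
    (fun s hs => pl_TT hp hS hk hA hδ haτ halen hs.1 hs.2 hJL)
  refine ⟨Z, u, huI, ?_, ?_, hZu, hZc, hZD, ?_, hZsep⟩
  · rw [hu]
    have : ((min w t : ℕ) : ℝ) + 1 ≤ a := by exact_mod_cast ha1
    linarith
  · rw [hu]
    exact_mod_cast ha2
  · intro z hz
    rcases hZs hz with (hz | ⟨X, hX, rfl⟩) | ⟨X, hX, rfl⟩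
    · obtain ⟨θ, g0, g1, rfl⟩ := seg_Ti hz
      rw [Th_Ti hδ]
      exact bounds_TT haN (Sd_Bx (Or.inl hc.1) (by linarith) (by linarith))
    · rw [Th_Ti hδ]
      obtain ⟨⟨v', hv', hX'⟩, -⟩ := hX
      exact bounds_TT hv' hX'
    · rw [Th_Ti hδ]
      obtain ⟨⟨v', hv', hX'⟩, -⟩ := hX
      exact bounds_TT hv' hX'

end

end Vale.Agent.P167.QC.DT
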