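import Vale.Agent.P167.Defs
import Mathlib.Analysis.Complex.Basic
import Mathlib.Tactic.Linarith

/-!
# P167, general `q`, block DT (iii): the corner curve in the lattice of the squares
-/

set_option autoImplicit false

namespace Vale.Agent.P167.QC.DT

open Vale.Agent.P167

/-- The position of a site. -/
noncomputable def P2 (s : ℤ × ℤ) : ℂ := ⟨s.1, s.2⟩

/-- The point of the side of the medial edge `e`: the left site for `θ = 0`, the right site for
`θ = 1`. -/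
noncomputable def Sd (e : Ed) (θ : ℝ) : ℂ :=
  ⟨(1 - θ) * (ls e).1 + θ * (rs e).1, (1 - θ) * (ls e).2 + θ * (rs e).2⟩

/-- The point of the corner curve between the medial edges `e` and `nx ω e`. -/
noncomputable def Pc (ω : Cfg) (e : Ed) (t : ℝ) : ℂ :=
  ⟨(1 - t) * (Sd e (1 / 2)).re + t * (Sd (nx ω e) (1 / 2)).re,
    (1 - t) * (Sd e (1 / 2)).im + t * (Sd (nx ω e) (1 / 2)).im⟩

/-- The diagonal of the square `v` which joins its corners of the colour `x`. -/
def odg (x : Bool) (v : ℤ × ℤ) : Set ℂ :=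
  {X | (v.1 : ℝ) ≤ X.re ∧ X.re ≤ v.1 + 1 ∧ (v.2 : ℝ) ≤ X.im ∧ X.im ≤ v.2 + 1 ∧
    ((v.1 + v.2) % 2 = (if x then 0 else 1) → X.re - v.1 = X.im - v.2) ∧
    ((v.1 + v.2) % 2 = (if x then 1 else 0) → X.re - v.1 + (X.im - v.2) = 1)}

theorem Sd_inl (v : ℤ × ℤ) (θ : ℝ) : (Sd (Sum.inl v) θ).re = v.1 + 1 ∧
    (Sd (Sum.inl v) θ).im = v.2 + (if (v.1 + v.2) % 2 = 0 then 1 - θ else θ) := by
  have h : Even (v.1 + v.2) ↔ (v.1 + v.2) % 2 = 0 := Int.even_iff
  simp only [Sd, ls, rs, h]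
  split_ifs <;> push_cast <;> constructor <;> ring

theorem Sd_inr (v : ℤ × ℤ) (θ : ℝ) :
    (Sd (Sum.inr v) θ).re = v.1 + (if (v.1 + v.2) % 2 = 0 then 1 - θ else θ) ∧
    (Sd (Sum.inr v) θ).im = v.2 + 1 := by
  have h : Even (v.1 + v.2) ↔ (v.1 + v.2) % 2 = 0 := Int.even_iff
  simp only [Sd, ls, rs, h]
  split_ifs <;> push_cast <;> constructor <;> ring

/-- The eight forms of the piece of the corner curve in the square `hdv e`. -/
theorem piece8 (ω : Cfg) (e : Ed) (t : ℝ) : ∃ α β : ℝ, (Pc ω e t).re = (hdv e).1 + α ∧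
    (Pc ω e t).im = (hdv e).2 + β ∧
    (((hdv e).1 + (hdv e).2) % 2 = 0 ∧ ω (hdv e) = true ∧
        (α = 1 / 2 - t / 2 ∧ β = 1 - t / 2 ∨ α = 1 / 2 + t / 2 ∧ β = t / 2) ∨
      ((hdv e).1 + (hdv e).2) % 2 = 0 ∧ ω (hdv e) = false ∧
        (α = 1 / 2 + t / 2 ∧ β = 1 - t / 2 ∨ α = 1 / 2 - t / 2 ∧ β = t / 2) ∨
      ((hdv e).1 + (hdv e).2) % 2 = 1 ∧ ω (hdv e) = true ∧
        (α = t / 2 ∧ β = 1 / 2 - t / 2 ∨ α = 1 - t / 2 ∧ β = 1 / 2 + t / 2) ∨
      ((hdv e).1 + (hdv e).2) % 2 = 1 ∧ ω (hdv e) = false ∧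
        (α = t / 2 ∧ β = 1 / 2 + t / 2 ∨ α = 1 - t / 2 ∧ β = 1 / 2 - t / 2)) := by
  rcases e with v | v
  · obtain ⟨s1, s2⟩ := Sd_inl v (1 / 2)
    by_cases hv : Even (v.1 + v.2)
    · have hv' : (v.1 + v.2) % 2 = 0 := Int.even_iff.1 hv
      simp only [hdv, hv, if_true]
      by_cases ho : ω (v.1 + 1, v.2) = true
      · obtain ⟨r1, r2⟩ := Sd_inr (v.1 + 1, v.2 - 1) (1 / 2)
        simp only [Pc, nx, hv, if_true, ho, s1, s2, r1, r2, hv']
        refine ⟨t / 2, 1 / 2 - t / 2, ?_, ?_, Or.inr (Or.inr (Or.inl ⟨by omega, trivial, Or.inl ⟨rfl, rfl⟩⟩))⟩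
        · split_ifs <;> push_cast <;> ring
        · push_cast; ring
      · rw [Bool.not_eq_true] at ho
        obtain ⟨r1, r2⟩ := Sd_inr (v.1 + 1, v.2) (1 / 2)
        simp only [Pc, nx, hv, if_true, ho, s1, s2, r1, r2, hv', Bool.false_eq_true, if_false]
        refine ⟨t / 2, 1 / 2 + t / 2, ?_, ?_, Or.inr (Or.inr (Or.inr ⟨by omega, trivial, Or.inl ⟨rfl, rfl⟩⟩))⟩
        · split_ifs <;> push_cast <;> ring
        · push_cast; ring
    · have hv' : (v.1 + v.2) % 2 = 1 := by rw [Int.even_iff] at hv; omega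
      simp only [hdv, hv, if_false]
      have hv0 : ¬ ((v.1 + v.2) % 2 = 0) := by omega
      by_cases ho : ω v = true
      · obtain ⟨r1, r2⟩ := Sd_inr v (1 / 2)
        simp only [Pc, nx, hv, if_true, if_false, ho, s1, s2, r1, r2, hv0]
        refine ⟨1 - t / 2, 1 / 2 + t / 2, ?_, ?_, Or.inr (Or.inr (Or.inl ⟨hv', trivial, Or.inr ⟨rfl, rfl⟩⟩))⟩
        · push_cast; ring
        · push_cast; ring
      · rw [Bool.not_eq_true] at ho
        obtain ⟨r1, r2⟩ := Sd_inr (v.1, v.2 - 1) (1 / 2)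
        simp only [Pc, nx, hv, if_false, ho, s1, s2, r1, r2, hv0, Bool.false_eq_true]
        refine ⟨1 - t / 2, 1 / 2 - t / 2, ?_, ?_, Or.inr (Or.inr (Or.inr ⟨hv', trivial, Or.inr ⟨rfl, rfl⟩⟩))⟩
        · split_ifs <;> push_cast <;> ring
        · push_cast; ring
  · obtain ⟨s1, s2⟩ := Sd_inr v (1 / 2)
    by_cases hv : Even (v.1 + v.2)
    · have hv' : (v.1 + v.2) % 2 = 0 := Int.even_iff.1 hv
      simp only [hdv, hv, if_true]
      by_cases ho : ω v = true
      · obtain ⟨r1, r2⟩ := Sd_inl (v.1 - 1, v.2) (1 / 2)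
        simp only [Pc, nx, hv, if_true, ho, s1, s2, r1, r2, hv']
        refine ⟨1 / 2 - t / 2, 1 - t / 2, ?_, ?_, Or.inl ⟨trivial, trivial, Or.inl ⟨rfl, rfl⟩⟩⟩
        · push_cast; ring
        · split_ifs <;> push_cast <;> ring
      · rw [Bool.not_eq_true] at ho
        obtain ⟨r1, r2⟩ := Sd_inl v (1 / 2)
        simp only [Pc, nx, hv, if_true, ho, s1, s2, r1, r2, hv', Bool.false_eq_true, if_false]
        refine ⟨1 / 2 + t / 2, 1 - t / 2, ?_, ?_, Or.inr (Or.inl ⟨trivial, trivial, Or.inl ⟨rfl, rfl⟩⟩)⟩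
        · push_cast; ring
        · push_cast; ring
    · have hv' : (v.1 + v.2) % 2 = 1 := by rw [Int.even_iff] at hv; omega
      simp only [hdv, hv, if_false]
      have hv0 : ¬ ((v.1 + v.2) % 2 = 0) := by omega
      by_cases ho : ω (v.1, v.2 + 1) = true
      · obtain ⟨r1, r2⟩ := Sd_inl (v.1, v.2 + 1) (1 / 2)
        simp only [Pc, nx, hv, if_true, if_false, ho, s1, s2, r1, r2, hv0]
        refine ⟨1 / 2 + t / 2, t / 2, ?_, ?_, Or.inl ⟨by omega, trivial, Or.inr ⟨rfl, rfl⟩⟩⟩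
        · push_cast; ring
        · split_ifs <;> push_cast <;> ring
      · rw [Bool.not_eq_true] at ho
        obtain ⟨r1, r2⟩ := Sd_inl (v.1 - 1, v.2 + 1) (1 / 2)
        simp only [Pc, nx, hv, if_false, ho, s1, s2, r1, r2, hv0, Bool.false_eq_true]
        refine ⟨1 / 2 - t / 2, t / 2, ?_, ?_, Or.inr (Or.inl ⟨by omega, trivial, Or.inr ⟨rfl, rfl⟩⟩)⟩
        · push_cast; ring
        · split_ifs <;> push_cast <;> ring

theorem int_between {a : ℤ} {x : ℝ} (h1 : x - 1 < a) (h2 : (a : ℝ) < x + 1) (hx : x = 0) :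
    a = 0 := by
  subst hx
  have h3 : (-1 : ℤ) < a := by
    have : ((-1 : ℤ) : ℝ) < a := by push_cast; linarith
    exact_mod_cast this
  have h4 : a < 1 := by
    have : (a : ℝ) < ((1 : ℤ) : ℝ) := by push_cast; linarith
    exact_mod_cast this
  omega

/-- The form of the piece, in a weaker uniform form. -/
theorem piece_u (ω : Cfg) (e : Ed) {t : ℝ} (h0 : 0 ≤ t) (h1 : t ≤ 1) : ∃ α β : ℝ,
    (Pc ω e t).re = (hdv e).1 + α ∧ (Pc ω e t).im = (hdv e).2 + β ∧ 0 ≤ α ∧ α ≤ 1 ∧ 0 ≤ β ∧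
    β ≤ 1 ∧ ((α = 0 ∨ α = 1) → β = 1 / 2 ∧ (t = 0 ∨ t = 1)) ∧
    ((β = 0 ∨ β = 1) → α = 1 / 2 ∧ (t = 0 ∨ t = 1)) ∧
    (((hdv e).1 + (hdv e).2) % 2 = (if ω (hdv e) then 0 else 1) →
      α - β = 1 / 2 ∨ α - β = -(1 / 2)) ∧
    (((hdv e).1 + (hdv e).2) % 2 = (if ω (hdv e) then 1 else 0) →
      α + β = 1 / 2 ∨ α + β = 3 / 2) := by
  obtain ⟨α, β, h2, h3, h4⟩ := piece8 ω e t
  refine ⟨α, β, h2, h3, ?_⟩
  rcases h4 with ⟨p, o, ⟨rfl, rfl⟩ | ⟨rfl, rfl⟩⟩ | ⟨p, o, ⟨rfl, rfl⟩ | ⟨rfl, rfl⟩⟩ |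
      ⟨p, o, ⟨rfl, rfl⟩ | ⟨rfl, rfl⟩⟩ | ⟨p, o, ⟨rfl, rfl⟩ | ⟨rfl, rfl⟩⟩ <;>
    simp only [o, p, if_true, Bool.false_eq_true, if_false] <;>
    refine ⟨by linarith, by linarith, by linarith, by linarith, ?_, ?_, ?_, ?_⟩
  all_goals first
    | (rintro (h | h) <;> first
        | exact ⟨by linarith, Or.inl (by linarith)⟩
        | exact ⟨by linarith, Or.inr (by linarith)⟩
        | (exfalso; linarith))
    | (intro h; first
        | (exfalso; omega)
        | exact Or.inl (by linarith)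
        | exact Or.inr (by linarith))

/-- **The corner curve does not meet the diagonals of the colour of the squares.** -/
theorem piece_odg (ω : Cfg) (e : Ed) {t : ℝ} (h0 : 0 ≤ t) (h1 : t ≤ 1) (v : ℤ × ℤ) :
    Pc ω e t ∉ odg (ω v) v := by
  rintro ⟨a1, a2, a3, a4, a5, a6⟩
  obtain ⟨α, β, b1, b2, b3, b4, b5, b6, b7, b8, b9, b10⟩ := piece_u ω e h0 h1
  rw [b1] at a1 a2 a5 a6
  rw [b2] at a3 a4 a5 a6
  obtain ⟨a, ha⟩ : ∃ a : ℤ, (hdv e).1 = v.1 + a := ⟨(hdv e).1 - v.1, by ring⟩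
  obtain ⟨b, hb⟩ : ∃ b : ℤ, (hdv e).2 = v.2 + b := ⟨(hdv e).2 - v.2, by ring⟩
  have ha' : ((hdv e).1 : ℝ) = v.1 + a := by exact_mod_cast ha
  have hb' : ((hdv e).2 : ℝ) = v.2 + b := by exact_mod_cast hb
  rw [ha'] at a1 a2 a5 a6
  rw [hb'] at a3 a4 a5 a6
  have hpar : (v.1 + v.2) % 2 = 0 ∨ (v.1 + v.2) % 2 = 1 := by omega
  have hdiag : ((a : ℝ) + α = b + β) ∨ ((a : ℝ) + α + (b + β) = 1) := by
    cases ho : ω v with
    | true =>
      rw [ho] at a5 a6
      simp only [if_true] at a5 a6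
      rcases hpar with h | h
      · left; linarith [a5 h]
      · right; linarith [a6 h]
    | false =>
      rw [ho] at a5 a6
      simp only [Bool.false_eq_true, if_false] at a5 a6
      rcases hpar with h | h
      · right; linarith [a6 h]
      · left; linarith [a5 h]
  have key : ∀ c d : ℤ, ∀ x y : ℝ, c ≠ 0 → 0 ≤ x → x ≤ 1 → 0 ≤ (c : ℝ) + x → (c : ℝ) + x ≤ 1 →
      ((x = 0 ∨ x = 1) → y = 1 / 2) → 0 ≤ (d : ℝ) + y → (d : ℝ) + y ≤ 1 →
      (((c : ℝ) + x = d + y) ∨ ((c : ℝ) + x + (d + y) = 1)) → False := by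
    intro c d x y hc x0 x1 x2 x3 hx y2 y3 hd
    have hc1 : c = 1 ∨ c = -1 := by
      have e1 : c < 2 := by
        have : (c : ℝ) < ((2 : ℤ) : ℝ) := by push_cast; linarith
        exact_mod_cast this
      have e2 : -2 < c := by
        have : ((-2 : ℤ) : ℝ) < c := by push_cast; linarith
        exact_mod_cast this
      omega
    have hx01 : x = 0 ∨ x = 1 := by
      rcases hc1 with rfl | rfl
      · left; push_cast at x3; linarith
      · right; push_cast at x2; linarith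
    have hy := hx hx01
    have hd0 : d = 0 := by
      have e1 : d < 1 := by
        have : (d : ℝ) < ((1 : ℤ) : ℝ) := by push_cast; linarith
        exact_mod_cast this
      have e2 : -1 < d := by
        have : ((-1 : ℤ) : ℝ) < d := by push_cast; linarith
        exact_mod_cast this
      omega
    subst hd0
    rcases hc1 with rfl | rfl <;> rcases hx01 with rfl | rfl <;> rcases hd with hd | hd <;>
      push_cast at hd x2 x3 <;> linarith
  by_cases ha0 : a = 0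
  · by_cases hb0 : b = 0
    · subst ha0 hb0
      have hve : hdv e = v := by ext <;> omega
      rw [hve] at b9 b10
      push_cast at hdiag a5 a6
      cases ho : ω v with
      | true =>
        rw [ho] at a5 a6 b9 b10
        simp only [if_true] at a5 a6 b9 b10
        rcases hpar with h | h
        · rcases b9 h with h' | h' <;> linarith [a5 h]
        · rcases b10 h with h' | h' <;> linarith [a6 h]
      | false =>
        rw [ho] at a5 a6 b9 b10
        simp only [Bool.false_eq_true, if_false] at a5 a6 b9 b10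
        rcases hpar with h | h
        · rcases b10 h with h' | h' <;> linarith [a6 h]
        · rcases b9 h with h' | h' <;> linarith [a5 h]
    · refine key b a β α hb0 b5 b6 (by linarith) (by linarith) (fun h => (b8 h).1) (by linarith)
        (by linarith) ?_
      rcases hdiag with h | h
      · left; linarith
      · right; linarith
  · exact key a b α β ha0 b3 b4 (by linarith) (by linarith) (fun h => (b7 h).1) (by linarith)
      (by linarith) hdiag

/-- Two sides meet only in corners. -/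
theorem side_side {e e' : Ed} {θ θ' : ℝ} (h0 : 0 < θ) (h1 : θ < 1) (h0' : 0 ≤ θ') (h1' : θ' ≤ 1)
    (h : Sd e θ = Sd e' θ') : e = e' := by
  have hre := congrArg Complex.re h
  have him := congrArg Complex.im h
  have g : ∀ v : ℤ × ℤ, ∃ s : ℝ, 0 < s ∧ s < 1 ∧ (if (v.1 + v.2) % 2 = 0 then 1 - θ else θ) = s := by
    intro v
    split_ifs
    · exact ⟨_, by linarith, by linarith, rfl⟩
    · exact ⟨_, h0, h1, rfl⟩
  have g' : ∀ v : ℤ × ℤ, ∃ s : ℝ, 0 ≤ s ∧ s ≤ 1 ∧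
      (if (v.1 + v.2) % 2 = 0 then 1 - θ' else θ') = s := by
    intro v
    split_ifs
    · exact ⟨_, by linarith, by linarith, rfl⟩
    · exact ⟨_, h0', h1', rfl⟩
  have noint : ∀ (a : ℤ) (s : ℝ), 0 < s → s < 1 → s = a → False := by
    intro a s s0 s1 hs
    rw [hs] at s0 s1
    have e1 : 0 < a := by exact_mod_cast s0
    have e2 : a < 1 := by exact_mod_cast s1
    omega
  rcases e with v | v <;> rcases e' with w | w
  · rw [(Sd_inl v θ).1, (Sd_inl w θ').1] at hre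
    rw [(Sd_inl v θ).2, (Sd_inl w θ').2] at him
    obtain ⟨s, s0, s1, hs⟩ := g v
    obtain ⟨s', s0', s1', hs'⟩ := g' w
    rw [hs, hs'] at him
    have e1 : v.1 = w.1 := by
      have : (v.1 : ℝ) = w.1 := by linarith
      exact_mod_cast this
    have e2 : v.2 < w.2 + 1 := by
      have : (v.2 : ℝ) < ((w.2 + 1 : ℤ) : ℝ) := by push_cast; linarith
      exact_mod_cast this
    have e3 : w.2 < v.2 + 1 := by
      have : (w.2 : ℝ) < ((v.2 + 1 : ℤ) : ℝ) := by push_cast; linarith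
      exact_mod_cast this
    congr 1
    ext <;> omega
  · rw [(Sd_inl v θ).2, (Sd_inr w θ').2] at him
    obtain ⟨s, s0, s1, hs⟩ := g v
    rw [hs] at him
    exact (noint (w.2 + 1 - v.2) s s0 s1 (by push_cast; linarith)).elim
  · rw [(Sd_inr v θ).1, (Sd_inl w θ').1] at hre
    obtain ⟨s, s0, s1, hs⟩ := g v
    rw [hs] at hre
    exact (noint (w.1 + 1 - v.1) s s0 s1 (by push_cast; linarith)).elim
  · rw [(Sd_inr v θ).1, (Sd_inr w θ').1] at hre
    rw [(Sd_inr v θ).2, (Sd_inr w θ').2] at him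
    obtain ⟨s, s0, s1, hs⟩ := g v
    obtain ⟨s', s0', s1', hs'⟩ := g' w
    rw [hs, hs'] at hre
    have e1 : v.2 = w.2 := by
      have : (v.2 : ℝ) = w.2 := by linarith
      exact_mod_cast this
    have e2 : v.1 < w.1 + 1 := by
      have : (v.1 : ℝ) < ((w.1 + 1 : ℤ) : ℝ) := by push_cast; linarith
      exact_mod_cast this
    have e3 : w.1 < v.1 + 1 := by
      have : (w.1 : ℝ) < ((v.1 + 1 : ℤ) : ℝ) := by push_cast; linarith
      exact_mod_cast this
    congr 1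
    ext <;> omega

/-- A side meets the diagonals only in corners. -/
theorem side_odg {e : Ed} {θ : ℝ} (h0 : 0 < θ) (h1 : θ < 1) (x : Bool) (v : ℤ × ℤ) :
    Sd e θ ∉ odg x v := by
  rintro ⟨a1, a2, a3, a4, a5, a6⟩
  have hpar : (v.1 + v.2) % 2 = 0 ∨ (v.1 + v.2) % 2 = 1 := by omega
  have hdiag : ((Sd e θ).re - v.1 = (Sd e θ).im - v.2) ∨
      ((Sd e θ).re - v.1 + ((Sd e θ).im - v.2) = 1) := by
    cases x with
    | true =>
      simp only [if_true] at a5 a6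
      rcases hpar with h | h
      · exact Or.inl (a5 h)
      · exact Or.inr (a6 h)
    | false =>
      simp only [Bool.false_eq_true, if_false] at a5 a6
      rcases hpar with h | h
      · exact Or.inr (a6 h)
      · exact Or.inl (a5 h)
  have g : ∀ v : ℤ × ℤ, ∃ s : ℝ, 0 < s ∧ s < 1 ∧ (if (v.1 + v.2) % 2 = 0 then 1 - θ else θ) = s := by
    intro v
    split_ifs
    · exact ⟨_, by linarith, by linarith, rfl⟩
    · exact ⟨_, h0, h1, rfl⟩
  have noint : ∀ (a : ℤ) (s : ℝ), 0 < s → s < 1 → s = a → False := by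
    intro a s s0 s1 hs
    rw [hs] at s0 s1
    have e1 : 0 < a := by exact_mod_cast s0
    have e2 : a < 1 := by exact_mod_cast s1
    omega
  rcases e with w | w
  · rw [(Sd_inl w θ).1, (Sd_inl w θ).2] at hdiag
    obtain ⟨s, s0, s1, hs⟩ := g w
    rw [hs] at hdiag
    rcases hdiag with h | h
    · exact noint (w.1 + 1 - v.1 - w.2 + v.2) s s0 s1 (by push_cast; linarith)
    · exact noint (1 - (w.1 + 1 - v.1) - w.2 + v.2) s s0 s1 (by push_cast; linarith)
  · rw [(Sd_inr w θ).1, (Sd_inr w θ).2] at hdiag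
    obtain ⟨s, s0, s1, hs⟩ := g w
    rw [hs] at hdiag
    rcases hdiag with h | h
    · exact noint (w.2 + 1 - v.2 - w.1 + v.1) s s0 s1 (by push_cast; linarith)
    · exact noint (1 - (w.2 + 1 - v.2) - w.1 + v.1) s s0 s1 (by push_cast; linarith)

/-- **The corner curve meets the sides only in its vertices.** -/
theorem piece_side (ω : Cfg) (e : Ed) {t : ℝ} (h0 : 0 ≤ t) (h1 : t ≤ 1) {e' : Ed} {θ : ℝ}
    (g0 : 0 ≤ θ) (g1 : θ ≤ 1) (h : Pc ω e t = Sd e' θ) :
    (t = 0 ∧ e' = e ∨ t = 1 ∧ e' = nx ω e) ∧ θ = 1 / 2 := by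
  obtain ⟨α, β, b1, b2, b3, b4, b5, b6, b7, b8, -, -⟩ := piece_u ω e h0 h1
  have hre := congrArg Complex.re h
  have him := congrArg Complex.im h
  rw [b1] at hre
  rw [b2] at him
  have g' : ∀ v : ℤ × ℤ, ∃ s : ℝ, 0 ≤ s ∧ s ≤ 1 ∧ (s = 1 / 2 → θ = 1 / 2) ∧
      (if (v.1 + v.2) % 2 = 0 then 1 - θ else θ) = s := by
    intro v
    split_ifs
    · exact ⟨_, by linarith, by linarith, fun h => by linarith, rfl⟩
    · exact ⟨_, g0, g1, fun h => h, rfl⟩
  have h01 : ∀ (a : ℤ) (x : ℝ), 0 ≤ x → x ≤ 1 → x = a → x = 0 ∨ x = 1 := by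
    intro a x x0 x1 hx
    rw [hx] at x0 x1
    have e1 : 0 ≤ a := by exact_mod_cast x0
    have e2 : a ≤ 1 := by exact_mod_cast x1
    have : a = 0 ∨ a = 1 := by omega
    rcases this with rfl | rfl
    · left; rw [hx]; simp
    · right; rw [hx]; simp
  have hmid : ∀ e₁ : Ed, Sd e₁ (1 / 2) = Sd e' θ → e' = e₁ := fun e₁ h2 =>
    (side_side (by norm_num) (by norm_num) g0 g1 h2).symm
  have fin : (t = 0 ∨ t = 1) → θ = 1 / 2 → (t = 0 ∧ e' = e ∨ t = 1 ∧ e' = nx ω e) ∧ θ = 1 / 2 := by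
    rintro (ht | ht) hθ
    · refine ⟨Or.inl ⟨ht, hmid e ?_⟩, hθ⟩
      rw [← h]
      apply Complex.ext <;> simp [Pc, ht]
    · refine ⟨Or.inr ⟨ht, hmid _ ?_⟩, hθ⟩
      rw [← h]
      apply Complex.ext <;> simp [Pc, ht]
  rcases e' with w | w
  · rw [(Sd_inl w θ).1] at hre
    rw [(Sd_inl w θ).2] at him
    obtain ⟨s, s0, s1, s2, hs⟩ := g' w
    rw [hs] at him
    obtain ⟨hβ, ht⟩ := b7 (h01 (w.1 + 1 - (hdv e).1) α b3 b4 (by push_cast; linarith))
    refine fin ht (s2 ?_)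
    have e1 : (hdv e).2 < w.2 + 1 := by
      have : (((hdv e).2 : ℤ) : ℝ) < ((w.2 + 1 : ℤ) : ℝ) := by push_cast; linarith
      exact_mod_cast this
    have e2 : w.2 < (hdv e).2 + 1 := by
      have : (w.2 : ℝ) < (((hdv e).2 + 1 : ℤ) : ℝ) := by push_cast; linarith
      exact_mod_cast this
    have e3 : w.2 = (hdv e).2 := by omega
    rw [e3, hβ] at him
    linarith
  · rw [(Sd_inr w θ).1] at hre
    rw [(Sd_inr w θ).2] at him
    obtain ⟨s, s0, s1, s2, hs⟩ := g' w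
    rw [hs] at hre
    obtain ⟨hα, ht⟩ := b8 (h01 (w.2 + 1 - (hdv e).2) β b5 b6 (by push_cast; linarith))
    refine fin ht (s2 ?_)
    have e1 : (hdv e).1 < w.1 + 1 := by
      have : (((hdv e).1 : ℤ) : ℝ) < ((w.1 + 1 : ℤ) : ℝ) := by push_cast; linarith
      exact_mod_cast this
    have e2 : w.1 < (hdv e).1 + 1 := by
      have : (w.1 : ℝ) < (((hdv e).1 + 1 : ℤ) : ℝ) := by push_cast; linarith
      exact_mod_cast this
    have e3 : w.1 = (hdv e).1 := by omega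
    rw [e3, hα] at hre
    linarith

end Vale.Agent.P167.QC.DT
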