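import Vale.Agent.P167.QC.DT.Sq
import Vale.Agent.P167.QN.Fresh
import Vale.Agent.P167.H192.Dict2
import Mathlib.Analysis.Convex.PathConnected

/-!
# P167, general `q`, block DT (iii): transversal paths along open squares and sides
-/

set_option autoImplicit false

open Set Relation

namespace Vale.Agent.P167.QC.DT

open Vale.Agent.P167 Vale.Agent.P145.FB
open Vale.Agent.P167.FKA (Cor)
open Vale.Agent.P167.QN (Ann mem_Ann)

/-- The square `v` enlarged by one. -/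
def Bx (v : ℤ × ℤ) : Set ℂ :=
  {X | (v.1 : ℝ) - 1 ≤ X.re ∧ X.re ≤ v.1 + 2 ∧ (v.2 : ℝ) - 1 ≤ X.im ∧ X.im ≤ v.2 + 2}

theorem convex_odg (x : Bool) (v : ℤ × ℤ) : Convex ℝ (odg x v) := by
  rintro X ⟨x1, x2, x3, x4, x5, x6⟩ Y ⟨y1, y2, y3, y4, y5, y6⟩ a b ha hb hab
  have hre : (a • X + b • Y).re = a * X.re + b * Y.re := by simp
  have him : (a • X + b • Y).im = a * X.im + b * Y.im := by simp
  have e1 : (v.1 : ℝ) = a * v.1 + b * v.1 := by rw [← add_mul, hab, one_mul]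
  have e2 : (v.2 : ℝ) = a * v.2 + b * v.2 := by rw [← add_mul, hab, one_mul]
  have m1 := mul_nonneg ha (sub_nonneg.2 x1)
  have m2 := mul_nonneg ha (sub_nonneg.2 x2)
  have m3 := mul_nonneg ha (sub_nonneg.2 x3)
  have m4 := mul_nonneg ha (sub_nonneg.2 x4)
  have n1 := mul_nonneg hb (sub_nonneg.2 y1)
  have n2 := mul_nonneg hb (sub_nonneg.2 y2)
  have n3 := mul_nonneg hb (sub_nonneg.2 y3)
  have n4 := mul_nonneg hb (sub_nonneg.2 y4)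
  refine ⟨?_, ?_, ?_, ?_, fun h => ?_, fun h => ?_⟩ <;> simp only [hre, him]
  · nlinarith
  · nlinarith
  · nlinarith
  · nlinarith
  · have q1 := congrArg (fun t => a * t) (x5 h)
    have q2 := congrArg (fun t => b * t) (y5 h)
    nlinarith
  · have q1 := congrArg (fun t => a * t) (x6 h)
    have q2 := congrArg (fun t => b * t) (y6 h)
    nlinarith

theorem odg_Bx (x : Bool) (v : ℤ × ℤ) : odg x v ⊆ Bx v := by
  rintro X ⟨x1, x2, x3, x4, -, -⟩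
  exact ⟨by linarith, by linarith, by linarith, by linarith⟩

theorem corner_odg {x : Bool} {v s : ℤ × ℤ} (h : Cor v s)
    (hs : (s.1 + s.2) % 2 = if x then 0 else 1) : P2 s ∈ odg x v := by
  obtain ⟨h1, h2⟩ := h
  obtain ⟨v1, v2⟩ := v
  obtain ⟨s1, s2⟩ := s
  simp only at h1 h2 hs
  have hpar : (v1 + v2) % 2 = 0 ∨ (v1 + v2) % 2 = 1 := by omega
  unfold odg P2
  simp only [mem_setOf_eq]
  cases x <;> simp only [Bool.false_eq_true, if_true, if_false] at hs ⊢ <;>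
    rcases h1 with rfl | rfl <;> rcases h2 with rfl | rfl <;> push_cast <;>
    refine ⟨by linarith, by linarith, by linarith, by linarith, fun h => ?_, fun h => ?_⟩ <;>
    first
    | (exfalso; omega)
    | linarith

theorem ls_rs (e : Ed) : (rs e).1 - (ls e).1 ≤ 1 ∧ (ls e).1 - (rs e).1 ≤ 1 ∧
    (rs e).2 - (ls e).2 ≤ 1 ∧ (ls e).2 - (rs e).2 ≤ 1 := by
  rcases e with v | v <;> simp only [ls, rs] <;> split_ifs <;>
    refine ⟨by simp only; omega, by simp only; omega, by simp only; omega, by simp only; omega⟩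

theorem Sd_Bx {v : ℤ × ℤ} {e : Ed} (h : Cor v (ls e) ∨ Cor v (rs e)) {θ : ℝ} (h0 : 0 ≤ θ)
    (h1 : θ ≤ 1) : Sd e θ ∈ Bx v := by
  obtain ⟨a1, a2, a3, a4⟩ := ls_rs e
  have b1 : ((rs e).1 : ℝ) - (ls e).1 ≤ 1 := by exact_mod_cast a1
  have b2 : ((ls e).1 : ℝ) - (rs e).1 ≤ 1 := by exact_mod_cast a2
  have b3 : ((rs e).2 : ℝ) - (ls e).2 ≤ 1 := by exact_mod_cast a3
  have b4 : ((ls e).2 : ℝ) - (rs e).2 ≤ 1 := by exact_mod_cast a4
  have hc : ∀ s : ℤ × ℤ, Cor v s → (v.1 : ℝ) ≤ s.1 ∧ (s.1 : ℝ) ≤ v.1 + 1 ∧ (v.2 : ℝ) ≤ s.2 ∧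
      (s.2 : ℝ) ≤ v.2 + 1 := by
    rintro s ⟨c1, c2⟩
    have d1 : v.1 ≤ s.1 ∧ s.1 ≤ v.1 + 1 ∧ v.2 ≤ s.2 ∧ s.2 ≤ v.2 + 1 := by omega
    exact_mod_cast d1
  unfold Sd Bx
  simp only [mem_setOf_eq]
  rcases h with h | h
  · obtain ⟨c1, c2, c3, c4⟩ := hc _ h
    refine ⟨?_, ?_, ?_, ?_⟩ <;> nlinarith
  · obtain ⟨c1, c2, c3, c4⟩ := hc _ h
    refine ⟨?_, ?_, ?_, ?_⟩ <;> nlinarith

theorem Sd_conv (e : Ed) {a b θ θ' : ℝ} (hab : a + b = 1) :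
    a • Sd e θ + b • Sd e θ' = Sd e (a * θ + b * θ') := by
  have hb : b = 1 - a := by linarith
  subst hb
  apply Complex.ext <;> simp [Sd] <;> ring

theorem Sd_zero (e : Ed) : Sd e 0 = P2 (ls e) := by
  apply Complex.ext <;> simp [Sd, P2]

theorem Sd_one (e : Ed) : Sd e 1 = P2 (rs e) := by
  apply Complex.ext <;> simp [Sd, P2]

theorem Sd_inj {e : Ed} {θ θ' : ℝ} (h : Sd e θ = Sd e θ') : θ = θ' := by
  have hre := congrArg Complex.re h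
  have him := congrArg Complex.im h
  rcases e with v | v
  · rw [(Sd_inl v θ).2, (Sd_inl v θ').2] at him
    split_ifs at him <;> linarith
  · rw [(Sd_inr v θ).1, (Sd_inr v θ').1] at hre
    split_ifs at hre <;> linarith

/-- The transversal set of the colour `x`: the open diagonals of this colour, the sides which are
not in `F` and a part of the side `a`, near the squares of `N`. -/
def TT (ω : Cfg) (F : Set Ed) (N : Finset (ℤ × ℤ)) (x : Bool) (a : Ed) (J : Set ℝ) : Set ℂ :=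
  {X | (∃ v ∈ N, X ∈ Bx v) ∧ ((∃ v, ω v = x ∧ X ∈ odg x v) ∨
    (∃ e, e ∉ F ∧ ∃ θ ∈ Icc (0 : ℝ) 1, X = Sd e θ) ∨ ∃ θ ∈ J, X = Sd a θ)}

section

variable {ω : Cfg} {F : Set Ed} {N : Finset (ℤ × ℤ)} {x : Bool} {a : Ed} {J : Set ℝ}

/-- Paths of squares. -/
theorem chain_TT {s u : ℤ × ℤ} (hs : P2 s ∈ TT ω F N x a J)
    (hpar : (s.1 + s.2) % 2 = if x then 0 else 1)
    (h : ReflTransGen (PStep {v | v ∈ N ∧ ω v = x}) s u) :
    JoinedIn (TT ω F N x a J) (P2 s) (P2 u) ∧ (u.1 + u.2) % 2 = if x then 0 else 1 := by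
  induction h with
  | refl => exact ⟨JoinedIn.refl hs, hpar⟩
  | @tail b c hb hc ih =>
    obtain ⟨ih1, ih2⟩ := ih
    obtain ⟨c1, c2, c3, c4⟩ := hc
    have hcor := FKA.cor_of_step (F := {v | v ∈ N ∧ ω v = x}) ⟨c1, c2, c3, c4⟩
    have hpc : (c.1 + c.2) % 2 = if x then 0 else 1 := by
      rw [← ih2]
      omega
    refine ⟨ih1.trans ?_, hpc⟩
    refine JoinedIn.of_segment_subset fun X hX => ?_
    have hX' : X ∈ odg x (min b.1 c.1, min b.2 c.2) :=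
      (convex_odg x _).segment_subset (corner_odg hcor.1 ih2) (corner_odg hcor.2 hpc) hX
    exact ⟨⟨_, c3, odg_Bx _ _ hX'⟩, Or.inl ⟨_, c4, hX'⟩⟩

/-- Sides. -/
theorem side_TT {e : Ed} {v : ℤ × ℤ} (hv : v ∈ N) (hc : Cor v (ls e) ∨ Cor v (rs e))
    {P : Set ℝ} (hP : Convex ℝ P) (hP01 : ∀ θ ∈ P, 0 ≤ θ ∧ θ ≤ 1)
    (he : e ∉ F ∨ e = a ∧ P ⊆ J) {θ θ' : ℝ} (h : θ ∈ P) (h' : θ' ∈ P) :
    JoinedIn (TT ω F N x a J) (Sd e θ) (Sd e θ') := by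
  refine JoinedIn.of_segment_subset ?_
  rintro X ⟨α, β, hα, hβ, hαβ, rfl⟩
  rw [Sd_conv e hαβ]
  have hm : α * θ + β * θ' ∈ P := by
    have := hP h h' hα hβ hαβ
    simpa using this
  obtain ⟨m0, m1⟩ := hP01 _ hm
  refine ⟨⟨v, hv, Sd_Bx hc m0 m1⟩, ?_⟩
  rcases he with he | ⟨he, hJ⟩
  · exact Or.inr (Or.inl ⟨e, he, _, ⟨m0, m1⟩, rfl⟩)
  · exact Or.inr (Or.inr ⟨_, hJ hm, by rw [he]⟩)

/-- The corner curve does not meet the transversal set. -/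
theorem piece_TT (hJ : ∀ θ ∈ J, 0 ≤ θ ∧ θ ≤ 1 ∧ θ ≠ 1 / 2) {e : Ed} {t : ℝ} (h0 : 0 ≤ t)
    (h1 : t ≤ 1) (hs : t = 0 → e ∈ F) (he : t = 1 → nx ω e ∈ F) :
    Pc ω e t ∉ TT ω F N x a J := by
  rintro ⟨-, ⟨v, hv, h⟩ | ⟨e', he', θ, ⟨g0, g1⟩, h⟩ | ⟨θ, hθ, h⟩⟩
  · rw [← hv] at h
    exact piece_odg ω e h0 h1 v h
  · rcases (piece_side ω e h0 h1 g0 g1 h).1 with ⟨ht, hee⟩ | ⟨ht, hee⟩
    · exact he' (hee ▸ hs ht)
    · exact he' (hee ▸ he ht)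
  · obtain ⟨g0, g1, g2⟩ := hJ θ hθ
    exact g2 (piece_side ω e h0 h1 g0 g1 h).2

/-- The last piece of the corner curve does not meet the transversal set. -/
theorem last_TT (hJ : ∀ θ ∈ J, 0 ≤ θ ∧ θ ≤ 1) {e : Ed} {θ : ℝ} (h0 : 0 < θ) (h1 : θ < 1)
    (he : e ∈ F) (hθ : e = a → θ ∉ J) : Sd e θ ∉ TT ω F N x a J := by
  rintro ⟨-, ⟨v, hv, h⟩ | ⟨e', he', θ', ⟨g0, g1⟩, h⟩ | ⟨θ', hθ', h⟩⟩
  · exact side_odg h0 h1 x v h
  · exact he' ((side_side h0 h1 g0 g1 h) ▸ he)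
  · obtain ⟨g0, g1⟩ := hJ θ' hθ'
    have hea := side_side h0 h1 g0 g1 h
    rw [← hea] at h
    exact hθ hea ((Sd_inj h) ▸ hθ')

end

/-- The bounds of the transversal sets in an annulus. -/
theorem bounds_TT {x : ℤ × ℤ} {r R : ℤ} {v : ℤ × ℤ} (hv : v ∈ Ann x r R) {X : ℂ}
    (hX : X ∈ Bx v) : |X.re - x.1| ≤ R + 1 ∧ |X.im - x.2| ≤ R + 1 ∧
      ((r : ℝ) - 1 ≤ |X.re - x.1| ∨ (r : ℝ) - 1 ≤ |X.im - x.2|) := by
  rw [mem_Ann] at hv
  obtain ⟨h1, h2⟩ := hv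
  unfold FK.Bq at h1 h2
  rw [Finset.mem_product, Finset.mem_Ico, Finset.mem_Ico] at h1 h2
  obtain ⟨x1, x2, x3, x4⟩ := hX
  have k1 : (x.1 : ℝ) - R ≤ v.1 := by exact_mod_cast h1.1.1
  have k2 : (v.1 : ℝ) + 1 ≤ x.1 + R := by
    have : v.1 + 1 ≤ x.1 + R := by omega
    exact_mod_cast this
  have k3 : (x.2 : ℝ) - R ≤ v.2 := by exact_mod_cast h1.2.1
  have k4 : (v.2 : ℝ) + 1 ≤ x.2 + R := by
    have : v.2 + 1 ≤ x.2 + R := by omega
    exact_mod_cast this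
  refine ⟨abs_le.2 ⟨by linarith, by linarith⟩, abs_le.2 ⟨by linarith, by linarith⟩, ?_⟩
  have h3 : v.1 < x.1 - r ∨ x.1 + r ≤ v.1 ∨ v.2 < x.2 - r ∨ x.2 + r ≤ v.2 := by omega
  rcases h3 with h3 | h3 | h3 | h3
  · left
    have : (v.1 : ℝ) + 1 ≤ x.1 - r := by
      have : v.1 + 1 ≤ x.1 - r := by omega
      exact_mod_cast this
    rw [abs_sub_comm]
    exact le_trans (by linarith) (le_abs_self _)
  · left
    have : (x.1 : ℝ) + r ≤ v.1 := by exact_mod_cast h3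
    exact le_trans (by linarith) (le_abs_self _)
  · right
    have : (v.2 : ℝ) + 1 ≤ x.2 - r := by
      have : v.2 + 1 ≤ x.2 - r := by omega
      exact_mod_cast this
    rw [abs_sub_comm]
    exact le_trans (by linarith) (le_abs_self _)
  · right
    have : (x.2 : ℝ) + r ≤ v.2 := by exact_mod_cast h3
    exact le_trans (by linarith) (le_abs_self _)

end Vale.Agent.P167.QC.DT
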