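import Vale.Agent.P167.QC.DT.Tr

/-!
# P167, general `q`, block DT (iii): a crossing of an annulus by the path
-/

set_option autoImplicit false

open Set Relation

namespace Vale.Agent.P167.QC.DT

open Vale.Agent.P167 Vale.Agent.P145.FB
open Vale.Agent.P167.FKA (Cor)
open Vale.Agent.P167.FK (Bq)
open Vale.Agent.P167.QN (Ann mem_Ann FreshP FreshD)

theorem cor_ls_hdv (e : Ed) : Cor (hdv e) (ls e) ∧ Cor (hdv e) (rs e) := by
  rcases e with v | v <;> simp only [ls, rs, hdv, Cor] <;> split_ifs <;> simp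

theorem cor_ls_nx (ω : Cfg) (e : Ed) : Cor (hdv e) (ls (nx ω e)) ∧ Cor (hdv e) (rs (nx ω e)) := by
  rcases H192.ls_nx ω e with ⟨-, h2, h3, h4⟩ | ⟨-, h2, h3, h4⟩
  · refine ⟨?_, ?_⟩
    · rw [← h4]
      exact (FKA.cor_of_step h2).2
    · rw [h3]
      exact (cor_ls_hdv e).2
  · refine ⟨?_, ?_⟩
    · rw [h3]
      exact (cor_ls_hdv e).1
    · rw [← h4]
      exact (FKA.cor_of_step h2).2

theorem even_ls (e : Ed) : ((ls e).1 + (ls e).2) % 2 = 0 := by
  rcases e with v | v <;> simp only [ls, Int.even_iff] <;> split_ifs <;> simp only <;> omega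

theorem odd_rs (e : Ed) : ((rs e).1 + (rs e).2) % 2 = 1 := by
  rcases e with v | v <;> simp only [rs, Int.even_iff] <;> split_ifs <;> simp only <;> omega

theorem nm_of_in {x v s : ℤ × ℤ} {r : ℤ} (hv : v ∈ Bq x r) (h : Cor v s) : nm (s - x) ≤ r := by
  unfold FK.Bq at hv
  rw [Finset.mem_product, Finset.mem_Ico, Finset.mem_Ico] at hv
  obtain ⟨h1, h2⟩ := h
  unfold nm
  rw [Prod.fst_sub, Prod.snd_sub, max_le_iff, abs_le, abs_le]
  omega

theorem nm_of_out {x v s : ℤ × ℤ} {r : ℤ} (hv : v ∉ Bq x r) (h : Cor v s) : r ≤ nm (s - x) := by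
  unfold FK.Bq at hv
  rw [Finset.mem_product, Finset.mem_Ico, Finset.mem_Ico] at hv
  obtain ⟨h1, h2⟩ := h
  unfold nm
  rw [Prod.fst_sub, Prod.snd_sub, le_max_iff, le_abs, le_abs]
  omega

section

variable {ω : Cfg} {e : ℕ → Ed} {N : Finset (ℤ × ℤ)}

theorem ls_path (he : ∀ j, e (j + 1) = nx ω (e j)) {a b : ℕ} (hab : a ≤ b)
    (hN : ∀ i, a ≤ i → i < b → hdv (e i) ∈ N) :
    ReflTransGen (PStep {v | v ∈ N ∧ ω v = true}) (ls (e a)) (ls (e b)) := by
  induction b, hab using Nat.le_induction with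
  | base => exact ReflTransGen.refl
  | succ j hj ih =>
    have ih' := ih fun i h1 h2 => hN i h1 (by omega)
    rw [he j]
    rcases H192.ls_nx ω (e j) with ⟨h1, h2, -, h4⟩ | ⟨-, -, h3, -⟩
    · refine ih'.tail ⟨h2.1, h2.2.1, ?_⟩
      rw [h4]
      exact ⟨hN j hj (by omega), h1⟩
    · rw [h3]
      exact ih'

theorem rs_path (he : ∀ j, e (j + 1) = nx ω (e j)) {a b : ℕ} (hab : a ≤ b)
    (hN : ∀ i, a ≤ i → i < b → hdv (e i) ∈ N) :
    ReflTransGen (PStep {v | v ∈ N ∧ ω v = false}) (rs (e a)) (rs (e b)) := by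
  induction b, hab using Nat.le_induction with
  | base => exact ReflTransGen.refl
  | succ j hj ih =>
    have ih' := ih fun i h1 h2 => hN i h1 (by omega)
    rw [he j]
    rcases H192.ls_nx ω (e j) with ⟨-, -, h3, -⟩ | ⟨h1, h2, -, h4⟩
    · rw [h3]
      exact ih'
    · refine ih'.tail ⟨h2.1, h2.2.1, ?_⟩
      rw [h4]
      exact ⟨hN j hj (by omega), h1⟩

end

/-- A crossing between two sets of times. -/
theorem cross_idx {P Q : ℕ → Prop} {w t : ℕ} (hwt : w ≤ t) (hw : P w) (ht : Q t)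
    (hPQ : ∀ i, P i → ¬ Q i) : ∃ a b, w ≤ a ∧ a < b ∧ b ≤ t ∧ P a ∧ Q b ∧
      ∀ i, a < i → i < b → ¬ P i ∧ ¬ Q i := by
  classical
  have hex : ∃ i, w ≤ i ∧ Q i := ⟨t, hwt, ht⟩
  set b := Nat.find hex with hb
  obtain ⟨b1, b2⟩ := Nat.find_spec hex
  have bt : b ≤ t := Nat.find_min' hex ⟨hwt, ht⟩
  have hwb : w < b := lt_of_le_of_ne b1 fun h => hPQ w hw (h ▸ b2)
  set a := Nat.findGreatest P (b - 1) with ha
  have ha1 : P a := Nat.findGreatest_spec (m := w) (by omega) hw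
  have ha2 : w ≤ a := Nat.le_findGreatest (by omega) hw
  have ha3 : a ≤ b - 1 := Nat.findGreatest_le _
  refine ⟨a, b, ha2, by omega, bt, ha1, b2, fun i h1 h2 => ⟨?_, ?_⟩⟩
  · exact Nat.findGreatest_is_greatest h1 (by omega)
  · intro hQ
    exact Nat.find_min hex h2 ⟨by omega, hQ⟩

section

variable {x : ℤ × ℤ} {r R : ℤ} {D : Finset (ℤ × ℤ)} {ω : Cfg}

theorem rtg_symm {F : Set (ℤ × ℤ)} {s u : ℤ × ℤ} (h : ReflTransGen (PStep F) s u) :
    ReflTransGen (PStep F) u s := by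
  induction h with
  | refl => exact ReflTransGen.refl
  | tail _ h1 ih => exact ReflTransGen.head h1.symm ih

/-- A crossing which is not fresh. -/
theorem exitP (hF : ¬ FreshP x r R D ω) {s t c : ℤ × ℤ} (hs : nm (s - x) ≤ r)
    (ht : R ≤ nm (t - x)) (he : Even (s.1 + s.2))
    (hst : ReflTransGen (PStep {v | v ∈ Ann x r R ∧ ω v = true}) s t)
    (hc : ReflTransGen (PStep {v | v ∈ Ann x r R ∧ ω v = true}) c s) :
    ∃ v ∈ Ann x r R, ω v = true ∧ v ∉ D ∧ ∃ u : ℤ × ℤ, Even (u.1 + u.2) ∧ Cor v u ∧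
      ReflTransGen (PStep {v | v ∈ Ann x r R ∧ ω v = true}) c u := by
  by_contra hn
  push Not at hn
  refine hF ⟨s, t, he, hs, ht, hst, fun v hv ho u hu hcor hp => ?_⟩
  by_contra hD
  exact hn v hv ho hD u hu hcor (hc.trans hp)

/-- The same for the dual colour. -/
theorem exitD (hF : ¬ FreshD x r R D ω) {s t c : ℤ × ℤ} (hs : nm (s - x) ≤ r)
    (ht : R ≤ nm (t - x)) (he : Odd (s.1 + s.2))
    (hst : ReflTransGen (PStep {v | v ∈ Ann x r R ∧ ω v = false}) s t)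
    (hc : ReflTransGen (PStep {v | v ∈ Ann x r R ∧ ω v = false}) c s) :
    ∃ v ∈ Ann x r R, ω v = false ∧ v ∉ D ∧ ∃ u : ℤ × ℤ, Odd (u.1 + u.2) ∧ Cor v u ∧
      ReflTransGen (PStep {v | v ∈ Ann x r R ∧ ω v = false}) c u := by
  by_contra hn
  push Not at hn
  refine hF ⟨s, t, he, hs, ht, hst, fun v hv ho u hu hcor hp => ?_⟩
  by_contra hD
  exact hn v hv ho hD u hu hcor (hc.trans hp)

/-- **The window.** -/
theorem window {e : ℕ → Ed} (he : ∀ j, e (j + 1) = nx ω (e j)) {w t : ℕ} (hrR : r < R)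
    (hw : hdv (e w) ∈ Bq x r) (ht : hdv (e t) ∉ Bq x R) (hP : ¬ FreshP x r R D ω)
    (hD : ¬ FreshD x r R D ω) : ∃ a, min w t < a ∧ a < max w t ∧ hdv (e a) ∈ Ann x r R ∧
    (∃ v ∈ Ann x r R, ω v = true ∧ v ∉ D ∧ ∃ u : ℤ × ℤ, Even (u.1 + u.2) ∧ Cor v u ∧
      ReflTransGen (PStep {v | v ∈ Ann x r R ∧ ω v = true}) (ls (e a)) u) ∧
    (∃ v ∈ Ann x r R, ω v = false ∧ v ∉ D ∧ ∃ u : ℤ × ℤ, Odd (u.1 + u.2) ∧ Cor v u ∧
      ReflTransGen (PStep {v | v ∈ Ann x r R ∧ ω v = false}) (rs (e a)) u) := by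
  have hPQ : ∀ i, hdv (e i) ∈ Bq x r → ¬ (hdv (e i) ∉ Bq x R) := by
    intro i h1 h2
    have a1 := nm_of_in h1 (cor_ls_hdv (e i)).1
    have a2 := nm_of_out h2 (cor_ls_hdv (e i)).1
    omega
  have hls : ∀ i, Even ((ls (e i)).1 + (ls (e i)).2) := fun i => Int.even_iff.2 (even_ls _)
  have hrs : ∀ i, Odd ((rs (e i)).1 + (rs (e i)).2) := fun i => Int.odd_iff.2 (odd_rs _)
  rcases le_total w t with hwt | hwt
  · obtain ⟨a, b, h1, h2, h3, h4, h5, h6⟩ := cross_idx (P := fun i => hdv (e i) ∈ Bq x r)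
      (Q := fun i => hdv (e i) ∉ Bq x R) hwt hw ht hPQ
    have hN : ∀ i, a + 1 ≤ i → i < b → hdv (e i) ∈ Ann x r R := by
      intro i g1 g2
      obtain ⟨g3, g4⟩ := h6 i (by omega) g2
      rw [mem_Ann]
      exact ⟨not_not.1 g4, g3⟩
    have c1 := cor_ls_nx ω (e a)
    rw [← he a] at c1
    have c2 := cor_ls_hdv (e b)
    have hab : a + 1 < b := by
      rcases Nat.lt_or_ge (a + 1) b with h | h
      · exact h
      · have hb : b = a + 1 := by omega
        subst hb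
        have a1 := nm_of_in h4 c1.1
        have a2 := nm_of_out h5 c2.1
        omega
    refine ⟨a + 1, by omega, by omega, hN _ le_rfl hab, ?_, ?_⟩
    · exact exitP hP (nm_of_in h4 c1.1) (nm_of_out h5 c2.1) (hls _) (ls_path he hab.le hN)
        ReflTransGen.refl
    · exact exitD hD (nm_of_in h4 c1.2) (nm_of_out h5 c2.2) (hrs _) (rs_path he hab.le hN)
        ReflTransGen.refl
  · obtain ⟨a, b, h1, h2, h3, h4, h5, h6⟩ := cross_idx (P := fun i => hdv (e i) ∉ Bq x R)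
      (Q := fun i => hdv (e i) ∈ Bq x r) hwt ht hw (fun i h1 h2 => hPQ i h2 h1)
    have hN : ∀ i, a + 1 ≤ i → i < b → hdv (e i) ∈ Ann x r R := by
      intro i g1 g2
      obtain ⟨g3, g4⟩ := h6 i (by omega) g2
      rw [mem_Ann]
      exact ⟨not_not.1 g3, g4⟩
    have c1 := cor_ls_nx ω (e a)
    rw [← he a] at c1
    have c2 := cor_ls_hdv (e b)
    have hab : a + 1 < b := by
      rcases Nat.lt_or_ge (a + 1) b with h | h
      · exact h
      · have hb : b = a + 1 := by omega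
        subst hb
        have a1 := nm_of_out h4 c1.1
        have a2 := nm_of_in h5 c2.1
        omega
    refine ⟨a + 1, by omega, by omega, hN _ le_rfl hab, ?_, ?_⟩
    · exact exitP hP (nm_of_in h5 c2.1) (nm_of_out h4 c1.1) (hls _)
        (rtg_symm (ls_path he hab.le hN)) (ls_path he hab.le hN)
    · exact exitD hD (nm_of_in h5 c2.2) (nm_of_out h4 c1.2) (hrs _)
        (rtg_symm (rs_path he hab.le hN)) (rs_path he hab.le hN)

end

end Vale.Agent.P167.QC.DT
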